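import Vale.Agent.P196.Full.Lift.Step.Corner

/-!
# P196: the position of the origin in the supertiles of the next level

The corners of the blocks cut the corner coefficient of the level, hence the positions inside the
supertiles of the next level cut the whole space.
-/

namespace Vale.Agent.P196.Full.Lift

open Calculus Calculus.Part Tiles

attribute [local instance] Classical.propDecidable
attribute [local irreducible] K lvl

variable {n : ℕ} {Q : Type} [Group Q] {A : Amp Q n} {s : ℕ}

theorem atom_merge_equiv {u : Alt n →* Q} {I J : Type*} [DecidableEq I] [DecidableEq J]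
    (P : Part u I) (e : I ≃ J) (i : I) : (P.merge e).atom (e i) = P.atom i :=
  MonoidHom.ext fun a => congrArg P.hom (funext fun k => by simp [Pi.mulSingle_apply])

namespace Field

variable {F : Field A s}

/-- The origin of the blocks in which the given cell sits at the origin. -/
noncomputable def org (v : Fin (2 * lvl s) × Fin (2 * lvl s)) : Lat :=
  (-((v.1 : ℕ) : ℤ), -((v.2 : ℕ) : ℤ))

theorem eq_of_org {v w : Fin (2 * lvl s) × Fin (2 * lvl s)} {d : Lat}
    (h : org w = org v + (2 * (lvl s : ℤ)) • d) : w = v := by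
  have key : ∀ (a b : Fin (2 * lvl s)) (t : ℤ),
      -((b : ℕ) : ℤ) = -((a : ℕ) : ℤ) + 2 * (lvl s : ℤ) * t → b = a := by
    intro a b t h
    have ha := a.isLt
    have hb := b.isLt
    have : t = 0 := by
      rcases lt_trichotomy t 0 with h' | h' | h'
      · nlinarith
      · exact h'
      · nlinarith
    subst this
    exact Fin.ext (by omega)
  simp only [org, Prod.ext_iff, Prod.fst_add, Prod.snd_add, Prod.smul_fst, Prod.smul_snd,
    smul_eq_mul] at h
  exact Prod.ext (key _ _ _ h.1) (key _ _ _ h.2)

theorem exists_org (o : Lat) :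
    ∃ (v : Fin (2 * lvl s) × Fin (2 * lvl s)) (d : Lat), o = org v + (2 * (lvl s : ℤ)) • d := by
  have := Tiles.Geo.one_le_K
  have := Tiles.Geo.four_K_le_lvl s
  obtain ⟨w, i, j, hi, hj, h⟩ := exists_cell (lvl s) (by omega) o (0, 0)
  refine ⟨(⟨i, hi⟩, ⟨j, hj⟩), -w, ?_⟩
  simp only [Prod.ext_iff] at h
  ext <;> simp [org] <;> linarith [h.1, h.2]

/-- The corner coefficient cut along the origin of the blocks. -/
theorem exists_cornerPart : ∃ R : Part F.unit (Fin (2 * lvl s) × Fin (2 * lvl s)),
    GoodPart A R ∧ ∀ v, R.atom v = F.corner (org v) := by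
  have hn := A.eight_le
  have := Tiles.Geo.one_le_K
  have := Tiles.Geo.four_K_le_lvl s
  have hpos : 0 < 2 * lvl s := by omega
  let V := Fin (2 * lvl s) × Fin (2 * lvl s)
  let E : V → Part F.unit Bool := fun v =>
    (F.Y (place s (org v) 0 (lvl s) (lvl s))).merge
      fun T => decide (SameGeom (lvl s) (lvl s) (lvl s) T.1)
  have gE : ∀ v, GoodPart A (E v) := fun v => (F.good _).merge _
  have hE : ∀ v, (E v).atom true = F.corner (org v) := fun v => (block_eq _ _).symm
  have orth : ∀ v w, v ≠ w → Comm ((E v).atom true) ((E w).atom true) := fun v w hvw => by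
    rw [hE, hE]
    exact corner_comm fun d h => hvw (eq_of_org h).symm
  have pair : ∀ v w, Compat (E v) (E w) := fun v w => by
    by_cases hvw : v = w
    · exact hvw ▸ Compat.self _
    · exact compat_of_le hn (E v) (E w) false fun b hb => by
        cases b
        · exact absurd rfl hb
        · exact orth v w hvw
  obtain ⟨R, hR, hRm, -⟩ := exists_join F.good_unit V (fun _ => Bool) E gE pair
  have see : ∀ (x : V → Bool) v, x v = false → Comm (R.atom x) ((E v).atom true) := by
    intro x v hx
    rw [← hRm v]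
    exact (comm_merge_iff hR (hR.atom x) _ true).2 fun y hy =>
      R.comm_atom fun e => by rw [← e, hx] at hy; exact Bool.noConfusion hy
  have ex : ∀ x, R.atom x ≠ 1 → ∃ v, x v = true := by
    intro x hx
    by_contra hc
    obtain ⟨o, ho⟩ := exists_origin_of_ne_one (F := F) ⟨hR.atom x, R.meet_atom_unit x⟩ hx
    obtain ⟨v, d, rfl⟩ := exists_org (s := s) o
    rw [corner_add, ← hE] at ho
    exact ho (see x v (by simpa using fun h => hc ⟨v, h⟩))
  have uniq : ∀ x, R.atom x ≠ 1 → ∀ v w, x v = true → x w = true → v = w := by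
    intro x hx v w hv hw
    by_contra hvw
    have below : ∀ v, x v = true → Meet (R.atom x) ((E v).atom true) (R.atom x) := fun v hv =>
      meet_own (R.meet_atom_unit x) fun b hb => by
        rw [← hRm v]
        exact (comm_merge_iff hR (hR.atom x) _ b).2 fun y hy =>
          R.comm_atom fun e => hb (by rw [← hy, ← e, hv])
    exact hx (Meet.unique A.five_le (Meet.self _) (Meet.of_comm
      (comm_of_below A (orth v w hvw) (below v hv) (below w hw) (hR.atom x) (hR.atom x)
        ((gE v).atom true) ((gE w).atom true))))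
  let g : (V → Bool) → V := fun x =>
    if h : ∃ v, x v = true then h.choose else (⟨0, hpos⟩, ⟨0, hpos⟩)
  have gspec : ∀ x, R.atom x ≠ 1 → ∀ v, g x = v ↔ x v = true := by
    intro x hx v
    have h := ex x hx
    have e : g x = h.choose := dif_pos h
    rw [e]
    exact ⟨fun q => q ▸ h.choose_spec, fun q => uniq x hx _ _ h.choose_spec q⟩
  refine ⟨R.merge g, hR.merge g, fun v => ?_⟩
  rw [← hE]
  refine atom_eq_of_comm A.five_le (fun b hb => ?_) fun v' hv' => ?_
  · rw [← hRm v]
    refine (comm_merge_iff hR ((hR.merge g).atom v) _ b).2 fun y hy => ?_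
    refine ((comm_merge_iff hR (hR.atom y) g v).2 fun y' hy' => ?_).symm
    by_cases h1 : R.atom y' = 1
    · exact h1 ▸ comm_one_right _
    exact R.comm_atom fun e => hb (by rw [← hy, e, (gspec y' h1 v).1 hy'])
  · refine (comm_merge_iff hR ((gE v).atom true) g v').2 fun y hy => ?_
    by_cases h1 : R.atom y = 1
    · exact h1 ▸ comm_one_right _
    refine (see y v ?_).symm
    cases hyv : y v
    · rfl
    · exact absurd ((gspec y h1 v).2 hyv ▸ hy) (Ne.symm hv')

end Field

open Field in
/-- The position of the origin in the supertile of the next level. -/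
theorem Level.exists_cells {P : Part A.u (LTile 0)} (L : Level A P s) {F : Field A s}
    (hu : F.unit = L.unit) :
    ∃ R : Part A.u (Fin (width (s + 1)) × Fin (width (s + 1))), GoodPart A R ∧
      ∀ c, A.Shift (((c.1 : ℕ) : ℤ), ((c.2 : ℕ) : ℤ)) (F.corner 0) (R.atom c) := by
  obtain ⟨V, hV, hVa⟩ := exists_cornerPart (F := F)
  choose T hT hTg using fun c : Fin (width s) × Fin (width s) => exists_pshift (P := V) hV
    (v := ((((c.1 : ℕ) : ℤ), ((c.2 : ℕ) : ℤ)) : Lat))
    (u' := L.cells.atom c) (hu ▸ L.cells_shift c)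
  obtain ⟨R, hR, hRa⟩ := exists_glue L.cells_good T hTg
  let e : (Fin (width s) × Fin (width s)) × Fin (2 * lvl s) × Fin (2 * lvl s) ≃
      Fin (width (s + 1)) × Fin (width (s + 1)) :=
    (Equiv.prodProdProdComm _ _ _ _).trans <|
      Equiv.prodCongr
        (((Equiv.prodComm _ _).trans finProdFinEquiv).trans (finCongr (mul_comm _ _)))
        (((Equiv.prodComm _ _).trans finProdFinEquiv).trans (finCongr (mul_comm _ _)))
  refine ⟨R.merge e, hR.merge e, fun c' => ?_⟩
  obtain ⟨⟨c, v⟩, rfl⟩ := e.surjective c'
  rw [atom_merge_equiv, hRa]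
  have h1 : A.Shift (vec s (-org v)) (F.corner 0) (V.atom v) := by
    rw [hVa]
    simpa using corner_shift (F := F) 0 (org v)
  have h2 := h1.add (hT c v)
  convert h2 using 1
  have e1 : (((e (c, v)).1 : ℕ)) = (c.1 : ℕ) + width s * (v.1 : ℕ) := rfl
  have e2 : (((e (c, v)).2 : ℕ)) = (c.2 : ℕ) + width s * (v.2 : ℕ) := rfl
  rw [e1, e2]
  ext <;> simp [vec, org] <;> ring

end Vale.Agent.P196.Full.Lift
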