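import Vale.Agent.P196.Full.Tiles.Allowed
import Vale.Agent.P196.Full.Tiles.Equations.Classes
import Vale.Agent.P196.Full.Tiles.Parse.Markers

/-!
# P196: pure facts about scans and allowed signatures used by the lift

A value next to the centre is the largest one, and scans of nearby numbers are rigid: what a scan
shows at the bottom, together with the relayed numbers, determines the numbers.
-/

namespace Vale.Agent.P196.Full.Tiles.Parse

attribute [local irreducible] K M0 lvl

variable {v w : Fin 4 → Option ℕ} {m x : ℕ}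

lemma coordBit_seen (v : Fin 4 → Option ℕ) (x : ℕ) (s : Fin 4) :
    coordBit v x ⟨s, by omega⟩ = true ↔ ∃ y, v s = some y ∧ x ≤ y := by
  cases h : v s <;> simp [coordBit, h]

lemma coordBit_late (v : Fin 4 → Option ℕ) (x : ℕ) (t : Fin 4) :
    coordBit v x ⟨4 + t, by omega⟩ = true ↔
      ∃ y, v t = some y ∧ x ≤ y ∧ ∃ r z, v r = some z ∧ y < z := by
  have e : coordBit v x ⟨4 + t, by omega⟩ = ((v t).any (fun y => decide (x ≤ y)) &&
      decide (∃ r, (v t).any (fun y => (v r).any fun z => decide (y < z)) = true)) := by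
    simp only [coordBit, dif_neg (show ¬ 4 + (t : ℕ) < 4 by omega),
      dif_pos (show 4 + (t : ℕ) < 8 by omega), Nat.add_sub_cancel_left, Fin.eta]
  rw [e]
  cases h : v t with
  | none => simp
  | some y =>
    simp only [Option.any_some, Bool.and_eq_true, decide_eq_true_eq, Option.any_eq_true,
      Option.some.injEq, exists_eq_left']

lemma coordBit_here (v : Fin 4 → Option ℕ) (x : ℕ) :
    coordBit v x 8 = true ↔ ∃ s, v s = some x := by
  simp [coordBit]

lemma scanBit_seen (v : Fin 4 → Option ℕ) (m x : ℕ) (s : Fin 4) :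
    scanBit v m x ⟨s, by omega⟩ = true ↔ ∃ y, v s = some y ∧ x ≤ y := by
  cases h : v s <;> simp [scanBit, h]

lemma scanBit_max (v : Fin 4 → Option ℕ) (m x : ℕ) (s : Fin 4) :
    scanBit v m x ⟨12 + s, by omega⟩ = true ↔ v s = some m ∧ x ≤ m := by
  have e : scanBit v m x ⟨12 + s, by omega⟩ =
      ((v s).any (fun y => decide (x ≤ y)) && decide (v s = some m)) := by
    simp only [scanBit, dif_neg (show ¬ 12 + (s : ℕ) < 4 by omega),
      dif_neg (show ¬ 12 + (s : ℕ) < 8 by omega), dif_neg (show ¬ 12 + (s : ℕ) < 12 by omega),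
      dif_pos (show 12 + (s : ℕ) < 16 by omega), Nat.add_sub_cancel_left, Fin.eta]
  rw [e]
  cases h : v s <;> simp
  omega

/-- The scan of the values contains the scan of a coordinate. -/
theorem scanBit_eq_coordBit (v : Fin 4 → Option ℕ) (m x : ℕ) :
    (∀ (i : Fin 9) (_ : (i : ℕ) < 8), scanBit v m x ⟨i, by omega⟩ = coordBit v x i) ∧
      scanBit v m x 16 = coordBit v x 8 := by
  refine ⟨fun i hi => ?_, by simp [scanBit, coordBit]⟩
  obtain ⟨i, hi'⟩ := i
  by_cases h4 : i < 4
  · simp [scanBit, coordBit, h4]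
  · simp only [scanBit, coordBit, dif_neg h4, dif_pos (show i < 8 from hi)]

/-- Values all of which are largest are determined by the bottom of their scan. -/
theorem value_const (e : ∀ i, scanBit v m 0 i = scanBit w m 0 i)
    (hmax : ∀ s : Fin 4, scanBit v m 0 ⟨s, by omega⟩ = true →
      scanBit v m 0 ⟨12 + s, by omega⟩ = true) : v = w := by
  funext s
  cases hv : v s with
  | some y =>
    have h := hmax s ((scanBit_seen v m 0 s).2 ⟨y, hv, Nat.zero_le _⟩)
    have h' := h
    rw [e] at h'
    rw [← hv, ((scanBit_max v m 0 s).1 h).1, ((scanBit_max w m 0 s).1 h').1]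
  | none =>
    cases hw : w s with
    | none => rfl
    | some y =>
      have h := (scanBit_seen w m 0 s).2 ⟨y, hw, Nat.zero_le _⟩
      rw [← e] at h
      obtain ⟨z, hz, -⟩ := (scanBit_seen v m 0 s).1 h
      simp [hv] at hz

/-- No coordinate is seen: there is none. -/
theorem coord_none (e : ∀ i, coordBit v 0 i = coordBit w 0 i)
    (h : ∀ s : Fin 4, coordBit v 0 ⟨s, by omega⟩ = false) : v = w := by
  have none : ∀ u : Fin 4 → Option ℕ, (∀ s : Fin 4, coordBit u 0 ⟨s, by omega⟩ = false) →
      ∀ s, u s = Option.none := by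
    intro u hu s
    cases hs : u s with
    | none => rfl
    | some y =>
      have := (coordBit_seen u 0 s).2 ⟨y, hs, Nat.zero_le _⟩
      simp [hu s] at this
  funext s
  rw [none v h s, none w (fun s => by rw [← e]; exact h s) s]

/-- The step from one present number to another is shown by their late bits. -/
lemma late_rel (nv : Near v) {s r : Fin 4} {y c : ℕ} (hs : v s = some y) (hr : v r = some c) :
    y + (coordBit v 0 ⟨4 + s, by omega⟩).toNat = c + (coordBit v 0 ⟨4 + r, by omega⟩).toNat := by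
  have h1 := nv s r y c hs hr
  have h2 := nv r s c y hr hs
  by_cases ls : coordBit v 0 ⟨4 + s, by omega⟩ = true <;>
    by_cases lr : coordBit v 0 ⟨4 + r, by omega⟩ = true
  · obtain ⟨y', hy', -, u, z, hu, hz⟩ := (coordBit_late v 0 s).1 ls
    obtain ⟨c', hc', -, u', z', hu', hz'⟩ := (coordBit_late v 0 r).1 lr
    obtain rfl : y = y' := Option.some.inj (hs.symm.trans hy')
    obtain rfl : c = c' := Option.some.inj (hr.symm.trans hc')
    have := nv u r z c hu hr
    have := nv u' s z' y hu' hs
    simp only [ls, lr, Bool.toNat_true]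
    omega
  · obtain ⟨y', hy', -, u, z, hu, hz⟩ := (coordBit_late v 0 s).1 ls
    obtain rfl : y = y' := Option.some.inj (hs.symm.trans hy')
    have : ¬ c < z := fun g => lr ((coordBit_late v 0 r).2 ⟨c, hr, Nat.zero_le _, u, z, hu, g⟩)
    simp only [ls, Bool.eq_false_iff.2 lr, Bool.toNat_true, Bool.toNat_false]
    omega
  · obtain ⟨c', hc', -, u, z, hu, hz⟩ := (coordBit_late v 0 r).1 lr
    obtain rfl : c = c' := Option.some.inj (hr.symm.trans hc')
    have : ¬ y < z := fun g => ls ((coordBit_late v 0 s).2 ⟨y, hs, Nat.zero_le _, u, z, hu, g⟩)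
    simp only [Bool.eq_false_iff.2 ls, lr, Bool.toNat_true, Bool.toNat_false]
    omega
  · have : ¬ c < y := fun g => lr ((coordBit_late v 0 r).2 ⟨c, hr, Nat.zero_le _, s, y, hs, g⟩)
    have : ¬ y < c := fun g => ls ((coordBit_late v 0 s).2 ⟨y, hs, Nat.zero_le _, r, c, hr, g⟩)
    simp only [Bool.eq_false_iff.2 ls, Bool.eq_false_iff.2 lr]
    omega

/-- Coordinates with the same bottom of the scan and the same relays are equal. -/
theorem coord_const (nv : Near v) (nw : Near w) (e : ∀ i, coordBit v 0 i = coordBit w 0 i)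
    (h2 : v 2 = w 2) (h3 : v 3 = w 3)
    (hrel : ∀ t : Fin 4, coordBit v 0 ⟨t, by omega⟩ = true → coordBit v 0 2 = true ∨
      coordBit v 0 3 = true ∨ (coordBit v 0 8 = true ∧
        ∀ u : Fin 4, coordBit v 0 ⟨4 + u, by omega⟩ = false)) : v = w := by
  funext s
  cases hv : v s with
  | none =>
    cases hw : w s with
    | none => rfl
    | some y =>
      have h := (coordBit_seen w 0 s).2 ⟨y, hw, Nat.zero_le _⟩
      rw [← e] at h
      obtain ⟨z, hz, -⟩ := (coordBit_seen v 0 s).1 h
      simp [hv] at hz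
  | some y =>
    have hs := (coordBit_seen v 0 s).2 ⟨y, hv, Nat.zero_le _⟩
    obtain ⟨y', hw, -⟩ := (coordBit_seen w 0 s).1 (by rw [← e]; exact hs)
    suffices h : y = y' by rw [hw, h]
    have relay : ∀ r : Fin 4, v r = w r → coordBit v 0 ⟨r, by omega⟩ = true → y = y' := by
      intro r hr h
      obtain ⟨c, hc, -⟩ := (coordBit_seen v 0 r).1 h
      have a := late_rel nv hv hc
      have b := late_rel nw hw (hr ▸ hc)
      rw [← e, ← e] at b
      omega
    rcases hrel s hs with h | h | ⟨h8, hl⟩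
    · exact relay 2 h2 h
    · exact relay 3 h3 h
    · have zero : ∀ u : Fin 4 → Option ℕ, Near u → coordBit u 0 8 = true →
          (∀ t : Fin 4, coordBit u 0 ⟨4 + t, by omega⟩ = false) → ∀ y, u s = some y → y = 0 := by
        intro u nu g8 gl y hy
        obtain ⟨r, hr⟩ := (coordBit_here u 0).1 g8
        have a := late_rel nu hy hr
        rw [gl, gl] at a
        omega
      rw [zero v nv h8 hl y hv,
        zero w nw (by rw [← e]; exact h8) (fun t => by rw [← e]; exact hl t) y' hw]

/-- The state above a simple position: everything seen is at the next one. -/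
def Simple (st : Fin 9 → Bool) : Prop :=
  ∀ s : Fin 4, st ⟨s, by omega⟩ = true →
    st 8 = true ∧ ∀ t : Fin 4, st ⟨4 + t, by omega⟩ = false

/-- Above a simple position the numbers are the next one or absent. -/
theorem chain_simple (_nv : Near v) (h : Simple (coordBit v (x + 1))) (s : Fin 4) (y : ℕ)
    (hy : x < y) :
    v s = some y ↔ (y = x + 1 ∧ coordBit v (x + 1) ⟨s, by omega⟩ = true) := by
  have all : ∀ z, v s = some z → x + 1 ≤ z → z = x + 1 := by
    intro z hz hxz
    obtain ⟨h8, hl⟩ := h s ((coordBit_seen v (x + 1) s).2 ⟨z, hz, hxz⟩)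
    obtain ⟨r, hr⟩ := (coordBit_here v (x + 1)).1 h8
    by_contra hne
    have := (coordBit_late v (x + 1) r).2 ⟨_, hr, le_rfl, s, z, hz, by omega⟩
    simp [hl r] at this
  constructor
  · exact fun hs => ⟨all y hs hy, (coordBit_seen v (x + 1) s).2 ⟨y, hs, hy⟩⟩
  · rintro ⟨rfl, hs⟩
    obtain ⟨z, hz, hxz⟩ := (coordBit_seen v (x + 1) s).1 hs
    rw [hz, all z hz hxz]

/-- A position which is not simple carries no number. -/
theorem chain_not_simple (nv : Near v) (h : ¬ Simple (coordBit v (x + 1))) (s : Fin 4) :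
    v s ≠ some x := by
  intro hs
  refine h fun r hr => ?_
  obtain ⟨z, hz, hxz⟩ := (coordBit_seen v (x + 1) r).1 hr
  have := nv r s z x hz hs
  refine ⟨(coordBit_here v (x + 1)).2 ⟨r, by rw [hz, show z = x + 1 by omega]⟩, fun t => ?_⟩
  rw [Bool.eq_false_iff]
  intro ht
  obtain ⟨y, hy, hxy, u, z', hu, hlt⟩ := (coordBit_late v (x + 1) t).1 ht
  have := nv u s z' x hu hs
  omega

/-! ### Allowed signatures -/

lemma GCol.coord_some {g : GCol} {k : Fin 2} {y : ℕ} (h : g.coord k = some y) :
    (if k = 0 then g.tagA else g.tagB) = some y ∧ y < 2 * K := by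
  simp [GCol.coord, Option.filter_eq_some_iff] at h
  exact h

/-- Where a tag coordinate of a side of a cell can be. -/
lemma coord_pos {M i j : ℕ} (hM : K < M) {k : Fin 2} {y : ℕ} :
    ((geoH M i j).coord k = some y → M ≤ i + K ∧ i ≤ M + K ∧ M ≤ j + K ∧ j < M + K ∧
      y < 2 * K ∧ y = (if k = 0 then i else j) + K - M) ∧
    ((geoV M i j).coord k = some y → M ≤ i + K ∧ i < M + K ∧ M ≤ j + K ∧ j ≤ M + K ∧
      y < 2 * K ∧ y = (if k = 0 then i else j) + K - M) := by
  constructor <;> intro h <;> obtain ⟨h, hy⟩ := GCol.coord_some h <;> fin_cases k <;>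
    simp only [Fin.zero_eta, Fin.mk_one, Fin.isValue, if_true, if_false, one_ne_zero, geoV,
      GCol.tr_tagA, GCol.tr_tagB, GCol.tagA_eq_some, GCol.tagB_eq_some] at h ⊢
  all_goals
    obtain ⟨o, h⟩ := h
    have := (geoH_tag_iff hM _ _).1 h
    omega

lemma allowed_cell {sg : Sg → Bool} (h : sg ∈ Allowed) :
    ∃ F C i j, HasGeom 1 C ∧ i < 2 * lvl 1 ∧ j < 2 * lvl 1 ∧ sg = sig F (lvl 0) C ∧
      C.l.g = geoH (lvl 1) i j ∧ C.r.g = geoH (lvl 1) (i + 1) j ∧
      C.d.g = geoV (lvl 1) i j ∧ C.u.g = geoV (lvl 1) i (j + 1) := by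
  obtain ⟨F, T, i, j, -, -, hi, hj, rfl⟩ := h
  exact ⟨F, _, i, j, hasGeom_child F 1 T hi hj, hi, hj, rfl, by unfold child; rfl,
    by unfold child; rfl, by unfold child; rfl, by unfold child; rfl⟩

/-- A value next to the centre is the largest. -/
theorem allowed_max {sg : Sg → Bool} (h : sg ∈ Allowed) (k : Fin 2) (t s : Fin 4)
    (ht : sg (.coord k 0 ⟨t, by omega⟩) = true) (hs : sg (.scan ⟨s, by omega⟩) = true) :
    sg (.scan ⟨12 + s, by omega⟩) = true := by
  obtain ⟨F, C, i, j, -, hi, hj, rfl, hl, hr, hd, hu⟩ := allowed_cell h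
  have hK := K_large
  have hM := lvl_ge 1
  have h01 : lvl 1 = lvl 0 + 1 := lvl_succ 0
  obtain ⟨y, hy, -⟩ := (coordBit_seen (fun s => (C.gs s).coord k) (snap 0) t).1 ht
  obtain ⟨w, hw, -⟩ := (scanBit_seen (fun s => (C.gs s).val) (lvl 0 - K) 0 s).1 hs
  refine (scanBit_max (fun s => (C.gs s).val) (lvl 0 - K) 0 s).2 ⟨?_, Nat.zero_le _⟩
  have near : lvl 1 ≤ i + 1 + K ∧ i ≤ lvl 1 + K ∧ lvl 1 ≤ j + 1 + K ∧ j ≤ lvl 1 + K := by
    fin_cases t <;> simp only [Tile.gs, Matrix.cons_val_zero, Matrix.cons_val_one,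
      Matrix.cons_val_two, Matrix.cons_val_three, Matrix.head_cons, Matrix.tail_cons,
      Fin.mk_zero, Fin.mk_one, Fin.reduceFinMk, Fin.isValue, hl, hr, hd, hu] at hy
    · have := (coord_pos (by omega)).1 hy; omega
    · have := (coord_pos (by omega)).1 hy; omega
    · have := (coord_pos (by omega)).2 hy; omega
    · have := (coord_pos (by omega)).2 hy; omega
  have : w = lvl 0 - K := by
    fin_cases s <;> simp only [Tile.gs, Matrix.cons_val_zero, Matrix.cons_val_one,
      Matrix.cons_val_two, Matrix.cons_val_three, Matrix.head_cons, Matrix.tail_cons,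
      Fin.mk_zero, Fin.mk_one, Fin.reduceFinMk, Fin.isValue, hl, hr, hd, hu, geoV, GCol.tr_val] at hw
    · have := geoH_val_le hM (by omega) (by omega) hw
      have := geoH_val_eq (by omega) (by omega) hw
      omega
    · have := geoH_val_le hM (by omega) (by omega) hw
      have := geoH_val_eq (by omega) (by omega) hw
      omega
    · have := geoH_val_le hM (by omega) (by omega) hw
      have := geoH_val_eq (by omega) (by omega) hw
      omega
    · have := geoH_val_le hM (by omega) (by omega) hw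
      have := geoH_val_eq (by omega) (by omega) hw
      omega
  rw [hw, this]

/-- A column coordinate is relayed by the bottom or top side, or it is zero. -/
theorem allowed_relay {sg : Sg → Bool} (h : sg ∈ Allowed) (t : Fin 4)
    (ht : sg (.coord 0 0 ⟨t, by omega⟩) = true) :
    sg (.coord 0 0 2) = true ∨ sg (.coord 0 0 3) = true ∨
      (sg (.coord 0 0 8) = true ∧ ∀ u : Fin 4, sg (.coord 0 0 ⟨4 + u, by omega⟩) = false) := by
  obtain ⟨F, C, i, j, -, hi, hj, rfl, hl, hr, hd, hu⟩ := allowed_cell h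
  have hK := K_large
  have hM := lvl_ge 1
  obtain ⟨v, hv⟩ : ∃ v : Fin 4 → Option ℕ, v = fun s => (C.gs s).coord 0 := ⟨_, rfl⟩
  have e : ∀ l, sig F (lvl 0) C (.coord 0 0 l) = coordBit v (snap 0) l := fun l => by rw [hv]; rfl
  simp only [e] at ht ⊢
  rw [show snap 0 = 0 by simp [snap]] at ht ⊢
  obtain ⟨y, hy, -⟩ := (coordBit_seen v 0 t).1 ht
  have hd' : (lvl 1 ≤ i + K ∧ i < lvl 1 + K ∧ lvl 1 ≤ j + K ∧ j ≤ lvl 1 + K) →
      coordBit v 0 2 = true := fun g => by
    refine (coordBit_seen v 0 2).2 ⟨i + K - lvl 1, ?_, Nat.zero_le _⟩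
    rw [hv]
    show (C.d.g).coord 0 = _
    simp only [GCol.coord, if_true, Option.filter_eq_some_iff, decide_eq_true_eq]
    refine ⟨?_, by omega⟩
    rw [hd, geoV, GCol.tr_tagA, GCol.tagB_eq_some]
    exact ⟨j + K - lvl 1, (geoH_tag_iff (by omega) _ _).2 (by omega)⟩
  have one : (t = 1 ∧ y = 0) ∨ coordBit v 0 2 = true ∨ coordBit v 0 3 = true := by
    have hy' := hy
    rw [hv] at hy'
    fin_cases t <;> simp only [Tile.gs, Matrix.cons_val_zero, Matrix.cons_val_one,
      Matrix.cons_val_two, Matrix.cons_val_three, Matrix.head_cons, Matrix.tail_cons,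
      Fin.mk_zero, Fin.mk_one, Fin.reduceFinMk, Fin.isValue, hl, hr, hd, hu] at hy' ⊢
    · have g := (coord_pos (show K < lvl 1 by omega)).1 hy'
      simp only [if_true] at g
      exact Or.inr (Or.inl (hd' (by omega)))
    · have g := (coord_pos (show K < lvl 1 by omega)).1 hy'
      simp only [if_true] at g
      by_cases hz : y = 0
      · exact Or.inl ⟨trivial, hz⟩
      · exact Or.inr (Or.inl (hd' (by omega)))
    · exact Or.inr (Or.inl ht)
    · exact Or.inr (Or.inr ht)
  rcases one with ⟨rfl, rfl⟩ | h | h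
  swap; · exact Or.inl h
  swap; · exact Or.inr (Or.inl h)
  by_cases h2 : coordBit v 0 2 = true
  · exact Or.inl h2
  refine Or.inr (Or.inr ⟨(coordBit_here v 0).2 ⟨1, hy⟩, fun u => Bool.eq_false_iff.2 fun hl' => ?_⟩)
  have at0 : ∀ r z, v r = some z → z = 0 := by
    intro r z hz
    by_contra hne
    have hz' := hz
    have hy' := hy
    rw [hv] at hz' hy'
    simp only [Tile.gs, Matrix.cons_val_one, Matrix.cons_val_zero, hr] at hy'
    have g := (coord_pos (show K < lvl 1 by omega)).1 hy'
    simp only [if_true] at g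
    fin_cases r <;> simp only [Tile.gs, Matrix.cons_val_zero, Matrix.cons_val_one,
      Matrix.cons_val_two, Matrix.cons_val_three, Matrix.head_cons, Matrix.tail_cons,
      Fin.mk_zero, Fin.mk_one, Fin.reduceFinMk, Fin.isValue, hl, hr, hd, hu] at hz'
    · have := (coord_pos (show K < lvl 1 by omega)).1 hz'; simp only [if_true] at this; omega
    · exact hne (Option.some.inj (hz.symm.trans hy))
    · have := (coord_pos (show K < lvl 1 by omega)).2 hz'; simp only [if_true] at this; omega
    · have := (coord_pos (show K < lvl 1 by omega)).2 hz'; simp only [if_true] at this; omega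
  obtain ⟨y', hy', -, r, z, hr', hlt⟩ := (coordBit_late v 0 u).1 hl'
  have := at0 r z hr'
  omega

end Vale.Agent.P196.Full.Tiles.Parse
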