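import Vale.Agent.P196.Full.Lift.Step.Obs
import Vale.Agent.P196.Full.Lift.Step.Facts

/-!
# P196: the markers along one scan are compatible

Going down a scan, the markers above a level and the markers at the level are both compatible with
the state of the scan there, and on each state one of them is constant.
-/

namespace Vale.Agent.P196.Full.Lift

open Calculus Calculus.Part Tiles Tiles.Parse

attribute [local instance] Classical.propDecidable
attribute [local irreducible] K lvl

/-- Families of values are compared classically, as in the generic lemmas on observables. -/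
noncomputable local instance (priority := high) {α β : Type} : DecidableEq (α → β) :=
  fun a b => Classical.propDecidable (a = b)

variable {n : ℕ} {Q : Type} [Group Q] {A : Amp Q n} {s : ℕ}

/-- The state of a scan depends only on the numbers above. -/
theorem coordBit_congr {v w : Fin 4 → Option ℕ} {x : ℕ}
    (h : ∀ t y, x ≤ y → (v t = some y ↔ w t = some y)) : coordBit v x = coordBit w x := by
  have seen : ∀ t, ((v t).any fun y => decide (x ≤ y)) = ((w t).any fun y => decide (x ≤ y)) := by
    intro t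
    rw [Bool.eq_iff_iff]
    simp only [Option.any_eq_true, decide_eq_true_eq]
    exact ⟨fun ⟨y, hy, hxy⟩ => ⟨y, (h t y hxy).1 hy, hxy⟩,
      fun ⟨y, hy, hxy⟩ => ⟨y, (h t y hxy).2 hy, hxy⟩⟩
  funext i
  obtain ⟨i, hi⟩ := i
  unfold coordBit
  by_cases h4 : i < 4
  · simp [h4, seen]
  by_cases h8 : i < 8
  · simp only [h4, h8, dif_neg, dif_pos, not_false_iff]
    rw [seen, Bool.eq_iff_iff]
    simp only [Bool.and_eq_true, decide_eq_true_eq, Option.any_eq_true]
    refine and_congr_right fun ⟨y, hy, hxy⟩ => ?_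
    have hy' := (h _ y hxy).2 hy
    constructor
    · rintro ⟨r, y', h1, y'', h2, h3⟩
      obtain rfl : y' = y := Option.some.inj (h1.symm.trans hy')
      exact ⟨r, y', hy, y'', (h r y'' (by omega)).1 h2, h3⟩
    · rintro ⟨r, y', h1, y'', h2, h3⟩
      obtain rfl : y' = y := Option.some.inj (h1.symm.trans hy)
      exact ⟨r, y', hy', y'', (h r y'' (by omega)).2 h2, h3⟩
  · simp only [h4, h8, dif_neg, not_false_iff, decide_eq_decide]
    exact exists_congr fun t => h t x le_rfl

namespace Field

variable {F : Field A s} {K' L : Type} [Finite K'] [Finite L] {z : Lat} {f : LTile s → K'}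

/-- A coarsening of a partition sees what all the blocks in it see. -/
theorem sees_merge {R : Part (F.corner 0) L} (hR : GoodPart A R) (φ : L → K')
    (h : ∀ r, ∀ T ∈ Poss (F.Y z) (R.atom r), f T = φ r) : F.Sees z f (R.merge φ) := by
  intro k T hT
  by_contra hne
  exact hT ((comm_merge_iff hR ((F.good z).atom T) φ k).2 fun r hr =>
    by_contra fun hc => hne ((h r T fun q => hc q.symm).trans hr)).symm

/-- A block sees the value of the observable it refines. -/
theorem eq_of_refines {R : Part (F.corner 0) L} (hR : GoodPart A R) {O : Part (F.corner 0) K'}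
    (h : F.Sees z f O) {φ : L → K'} (hφ : R.merge φ = O) {r : L} {T : LTile s}
    (hT : T ∈ Poss (F.Y z) (R.atom r)) : f T = φ r := by
  by_contra hne
  have h1 : Comm (O.atom (φ r)) ((F.Y z).atom T) := by_contra fun q => hne (h (φ r) T q)
  rw [← hφ] at h1
  exact hT ((comm_merge_iff hR ((F.good z).atom T) φ (φ r)).1 h1.symm r rfl).symm

/-- What is possible for a refinement is possible for what it refines. -/
theorem mem_poss_merge {R : Part (F.corner 0) L} (hR : GoodPart A R) (φ : L → K')
    {e : Alt n →* Q} (he : A.Good e) {r : L} (h : r ∈ Poss R e) : φ r ∈ Poss (R.merge φ) e :=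
  fun hc => h ((comm_merge_iff hR he φ (φ r)).1 hc r rfl)

/-- The data of a scan: places, markers, states, and what every candidate column decodes. -/
structure Scan (F : Field A s) where
  /-- The largest level. -/
  top : ℕ
  /-- The cell of a level. -/
  at_ : ℕ → Lat
  /-- The markers. -/
  mark : LTile s → Fin 4 → Bool
  /-- The state above. -/
  state : LTile s → Fin 9 → Bool
  exact : ∀ x ≤ top, ∀ {K' : Type} [Finite K'] (f : LTile s → K'),
    ∃ O : Part (F.corner 0) K', GoodPart A O ∧ F.Sees (at_ x) f O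
  column : ∀ e, A.Good e → Meet e (F.corner 0) e → ∀ y ≤ top, ∀ T ∈ Poss (F.Y (at_ y)) e,
    ∃ (v : Fin 4 → Option ℕ) (U : ℕ → LTile s), U y = T ∧ Near v ∧
      (∀ t w, v t = some w → w ≤ top) ∧ ∀ x ≤ top, U x ∈ Poss (F.Y (at_ x)) e ∧
        (∀ t, mark (U x) t = decide (v t = some x)) ∧ state (U x) = coordBit v (x + 1)

/-- The markers above a level determine the state there. -/
theorem Scan.det (S : F.Scan) {x : ℕ} (hx : x ≤ S.top) {I : Type} [Finite I] {pl : I → ℕ}
    (hall : ∀ y, x < y → y ≤ S.top → ∃ b, pl b = y)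
    {R : Part (F.corner 0) (I → Fin 4 → Bool)} (hR : GoodPart A R)
    (hseen : ∀ b, F.Sees (S.at_ (pl b)) (fun T => S.mark T) (R.merge fun g => g b))
    {r : I → Fin 4 → Bool} {T U : LTile s} (hT : T ∈ Poss (F.Y (S.at_ x)) (R.atom r))
    (hU : U ∈ Poss (F.Y (S.at_ x)) (R.atom r)) : S.state T = S.state U := by
  obtain ⟨v, V, rfl, -, hv, hV⟩ := S.column _ (hR.atom r) (R.meet_atom_unit r) x hx T hT
  obtain ⟨w, W, rfl, -, hw, hW⟩ := S.column _ (hR.atom r) (R.meet_atom_unit r) x hx U hU
  rw [(hV x hx).2.2, (hW x hx).2.2]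
  refine coordBit_congr fun t y hy => ?_
  by_cases hyt : y ≤ S.top
  · obtain ⟨b, rfl⟩ := hall y hy hyt
    have e1 := congrFun (eq_of_refines hR (hseen b) rfl (hV _ hyt).1) t
    have e2 := congrFun (eq_of_refines hR (hseen b) rfl (hW _ hyt).1) t
    rw [(hV _ hyt).2.1] at e1
    rw [(hW _ hyt).2.1] at e2
    exact decide_eq_decide.1 (e1.trans e2.symm)
  · exact ⟨fun q => absurd (hv t y q) hyt, fun q => absurd (hw t y q) hyt⟩

/-- Above a simple state the markers are determined by it. -/
theorem Scan.above_const (S : F.Scan) {x y : ℕ} (hx : x ≤ S.top) (hxy : x < y) (hy : y ≤ S.top)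
    {St : Part (F.corner 0) (Fin 9 → Bool)} (hSt : GoodPart A St)
    (hSts : F.Sees (S.at_ x) S.state St) {M : Part (F.corner 0) (Fin 4 → Bool)} (hM : GoodPart A M)
    (hMs : F.Sees (S.at_ y) (fun T => S.mark T) M) {st : Fin 9 → Bool} (hs : Simple st)
    {g : Fin 4 → Bool} (hg : g ∈ Poss M (St.atom st)) (t : Fin 4) :
    g t = decide (y = x + 1 ∧ st ⟨t, by omega⟩ = true) := by
  obtain ⟨T, hT, e⟩ := hMs.poss hM (hSt.atom st) hg
  obtain ⟨v, V, rfl, hnear, -, hV⟩ := S.column _ (hSt.atom st) (St.meet_atom_unit st) y hy T hT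
  have est : st = coordBit v (x + 1) := by
    rw [← (hV x hx).2.2]
    exact (hSts st _ (hV x hx).1).symm
  rw [← e, (hV y hy).2.1, est, decide_eq_decide]
  exact chain_simple hnear (est ▸ hs) t y hxy

/-- At a level with a state which is not simple there is no marker. -/
theorem Scan.here_const (S : F.Scan) {x : ℕ} (hx : x ≤ S.top)
    {St : Part (F.corner 0) (Fin 9 → Bool)} (hSt : GoodPart A St)
    (hSts : F.Sees (S.at_ x) S.state St) {M : Part (F.corner 0) (Fin 4 → Bool)} (hM : GoodPart A M)
    (hMs : F.Sees (S.at_ x) (fun T => S.mark T) M) {st : Fin 9 → Bool} (hs : ¬ Simple st)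
    {g : Fin 4 → Bool} (hg : g ∈ Poss M (St.atom st)) (t : Fin 4) : g t = false := by
  obtain ⟨T, hT, e⟩ := hMs.poss hM (hSt.atom st) hg
  obtain ⟨v, V, rfl, hnear, -, hV⟩ := S.column _ (hSt.atom st) (St.meet_atom_unit st) x hx T hT
  have est : st = coordBit v (x + 1) := by
    rw [← (hV x hx).2.2]
    exact (hSts st _ (hV x hx).1).symm
  rw [← e, (hV x hx).2.1, decide_eq_false]
  exact chain_not_simple hnear (est ▸ hs) t

/-- The markers at a level are compatible with all those above. -/
theorem Scan.step (S : F.Scan) {x : ℕ} (hx : x ≤ S.top) {I : Type} [Finite I] {pl : I → ℕ}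
    (hpl : ∀ b, x < pl b ∧ pl b ≤ S.top) (hall : ∀ y, x < y → y ≤ S.top → ∃ b, pl b = y)
    {R : Part (F.corner 0) (I → Fin 4 → Bool)} (hR : GoodPart A R)
    (hseen : ∀ b, F.Sees (S.at_ (pl b)) (fun T => S.mark T) (R.merge fun g => g b))
    {M : Part (F.corner 0) (Fin 4 → Bool)} (hM : GoodPart A M)
    (hMs : F.Sees (S.at_ x) (fun T => S.mark T) M) : Compat M R := by
  obtain ⟨St, hSt, hSts⟩ := S.exact x hx S.state
  let φ : (I → Fin 4 → Bool) → Fin 9 → Bool := fun r =>
    if h : ∃ T, T ∈ Poss (F.Y (S.at_ x)) (R.atom r) then S.state h.choose else fun _ => false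
  have hφ : R.merge φ = St := by
    refine (sees_merge hR φ fun r T hT => ?_).unique (hR.merge φ) hSt hSts
    have h : ∃ T, T ∈ Poss (F.Y (S.at_ x)) (R.atom r) := ⟨T, hT⟩
    show S.state T = dite _ _ _
    rw [dif_pos h]
    exact S.det hx hall hR hseen hT h.choose_spec
  refine compat_of_const hM hR hSt (compat_of_sees hM hMs hSt hSts)
    (Compat.of_refines (f := φ) (congrArg Part.hom hφ)) fun st _ => ?_
  by_cases hs : Simple st
  · right
    intro r hr r' hr'
    funext b t
    rw [S.above_const hx (hpl b).1 (hpl b).2 hSt hSts (hR.merge _) (hseen b) hs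
        (mem_poss_merge hR (fun g => g b) (hSt.atom st) hr) t,
      S.above_const hx (hpl b).1 (hpl b).2 hSt hSts (hR.merge _) (hseen b) hs
        (mem_poss_merge hR (fun g => g b) (hSt.atom st) hr') t]
  · left
    intro g hg g' hg'
    funext t
    rw [S.here_const hx hSt hSts hM hMs hs hg t, S.here_const hx hSt hSts hM hMs hs hg' t]

/-- All markers of a scan are pairwise compatible. -/
theorem Scan.compat (S : F.Scan) {a b : ℕ} (ha : a ≤ S.top) (hb : b ≤ S.top) {t t' : Fin 4}
    {O O' : Part (F.corner 0) Bool} (hO : GoodPart A O)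
    (h : F.Sees (S.at_ a) (fun T => S.mark T t) O) (hO' : GoodPart A O')
    (h' : F.Sees (S.at_ b) (fun T => S.mark T t') O') : Compat O O' := by
  have : Finite {x // x ≤ S.top} := (Set.finite_le_nat S.top).to_subtype
  choose Mk hMk hMs using fun x : {x // x ≤ S.top} => S.exact x.1 x.2 (fun T => S.mark T)
  suffices key : ∀ d x, x + d = S.top + 1 → ∀ a b : {x // x ≤ S.top}, x ≤ a.1 → x ≤ b.1 →
      Compat (Mk a) (Mk b) by
    rw [h.unique hO ((hMk ⟨a, ha⟩).merge fun g => g t)
        ((hMs ⟨a, ha⟩).merge (hMk _) fun g => g t),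
      h'.unique hO' ((hMk ⟨b, hb⟩).merge fun g => g t')
        ((hMs ⟨b, hb⟩).merge (hMk _) fun g => g t')]
    exact (key (S.top + 1) 0 (Nat.zero_add _) ⟨a, ha⟩ ⟨b, hb⟩ (Nat.zero_le _)
      (Nat.zero_le _)).merge _ _
  intro d
  induction d with
  | zero => intro x hx a _ h1 _; have := a.2; omega
  | succ d ih =>
    intro x hx
    have hx' : x ≤ S.top := by omega
    suffices main : ∀ b : {x // x ≤ S.top}, x < b.1 → Compat (Mk ⟨x, hx'⟩) (Mk b) by
      intro a b h1 h2
      rcases Nat.eq_or_lt_of_le h1 with e1 | e1 <;> rcases Nat.eq_or_lt_of_le h2 with e2 | e2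
      · obtain rfl : a = b := Subtype.ext (e1.symm.trans e2)
        exact Compat.self _
      · obtain rfl : a = ⟨x, hx'⟩ := Subtype.ext e1.symm
        exact main b e2
      · obtain rfl : b = ⟨x, hx'⟩ := Subtype.ext e2.symm
        exact (main a e1).symm
      · exact ih (x + 1) (by omega) a b e1 e2
    intro b hb
    obtain ⟨R, hR, hRm, -⟩ := exists_join (below_corner (F := F) 0).good
      {b : {x // x ≤ S.top} // x < b.1} (fun _ => Fin 4 → Bool)
      (fun b => Mk b.1) (fun b => hMk b.1) fun b c => ih (x + 1) (by omega) b.1 c.1 b.2 c.2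
    have main' : Compat (Mk ⟨x, hx'⟩) R :=
      S.step hx' (pl := fun b => b.1.1) (fun b => ⟨b.2, b.1.2⟩)
        (fun y h1 h2 => ⟨⟨⟨y, h2⟩, h1⟩, rfl⟩) hR (fun b => by rw [hRm b]; exact hMs b.1) (hMk _)
        (hMs ⟨x, hx'⟩)
    rw [← hRm ⟨b, hb⟩]
    exact main'.merge id fun g => g ⟨b, hb⟩

end Field

end Vale.Agent.P196.Full.Lift
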