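import Vale.Agent.P196.Full.Tiles.Parse.Scan

/-!
# P196: the scans of one column path

A single path along the columns, seen as singleton candidates, has unambiguous hubs, so its scans
decode numbers, and the signal rows receive the bottom of each scan.
-/

namespace Vale.Agent.P196.Full.Tiles.Parse

variable {M : ℕ} {C : ℕ → ℕ → Set Tile} {b : ℕ → ℕ → Tile}

/-- A path as singleton candidates. -/
theorem VPath.single (P : VPath M C b) : VPath M (fun i j => {b i j}) b :=
  ⟨P.toVBlk, fun _ _ _ _ => rfl⟩

/-- The hubs of singleton candidates. -/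
theorem hubs_single (M : ℕ) (b : ℕ → ℕ → Tile) :
    Hubs M (fun i j => {b i j}) (fun s x => (b M (M + K - 1 + x)).valMark s)
      (fun k s c => (b (M - K + k) (M - K + c)).tagMark k k s)
      (fun q => (b M (M - K + sRow q)).hin K .P) where
  value := fun v _ T hT s => by rw [Set.mem_singleton_iff.1 hT]
  coord := fun k c _ T hT s => by rw [Set.mem_singleton_iff.1 hT]
  signal := fun q T hT => by rw [Set.mem_singleton_iff.1 hT]

/-- The switch column of one path decodes values, and its bottom is read in the signal rows. -/
theorem column_values (P : VPath M C b) :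
    ∃ v, Decoded (fun s x => (b M (M + K - 1 + x)).valMark s) (M - K) v ∧
      (∀ x, x ≤ M - K → ∀ i,
        (b M (M + K - 1 + x)).u.bit (.S i) = scanBit v (M - K) (x + 1) i) ∧
      ∀ i, (b M (M - K + sRow (.scan i))).hin K .P = scanBit v (M - K) 0 i := by
  have := P.large
  have := K_large
  have H := hubs_single M b
  have P' := P.single
  obtain ⟨htop, hst⟩ := scan_steps H P'
  obtain ⟨E, hE⟩ : ∃ E : ℕ → Fin 17 → Bool, E = fun x k => ev M b M (M + K - 1 + x) (.S k) :=
    ⟨_, rfl⟩
  have top : ∀ k, E (M - K + 1) k = false := fun k => by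
    rw [hE]
    simp only
    rw [show M + K - 1 + (M - K + 1) = 2 * M by omega]
    exact htop k
  obtain ⟨v, dv⟩ : ∃ v, Decoded (fun s x => (b M (M + K - 1 + x)).valMark s) (M - K) v := by
    refine exists_decoded (fun x s => E x ⟨s, by omega⟩) (fun x s => E x ⟨4 + s, by omega⟩)
      (fun x => E x 16) (fun s => top _) (fun x hx s => ?_) (fun x hx s => ?_) (fun x hx => ?_)
      (fun x hx k s h1 h2 => ?_)
    all_goals subst hE
    · have h := (hst x (by omega)).1 ⟨s, by omega⟩
      simp only [scanStep, dif_pos (show (s : ℕ) < 4 by omega), Fin.eta] at h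
      exact h
    · have h := (hst x (by omega)).1 ⟨4 + s, by omega⟩
      simp only [scanStep, dif_neg (show ¬ 4 + (s : ℕ) < 4 by omega),
        dif_pos (show 4 + (s : ℕ) < 8 by omega), Nat.add_sub_cancel_left, Fin.eta] at h
      exact h
    · have h := (hst x (by omega)).1 16
      simpa [scanStep] using h
    · exact (hst x (by omega)).2 k s h1 h2
  have val := dv.scan E top (fun x hx k => by subst hE; exact (hst x (by omega)).1 k)
  subst hE
  refine ⟨v, dv, fun x hx i => ?_, fun i => ?_⟩
  · rw [P.eu (by omega) (by omega), show M + K - 1 + x + 1 = M + K - 1 + (x + 1) by omega]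
    exact val (x + 1) (by omega) i
  · have hs := sRow_bounds (.scan i)
    have hl := sRow_lt (.scan i)
    have g := P.blockH (i := M) (j := M - K + sRow (.scan i)) (a := K) (c := sRow (.scan i))
      (by omega) (by omega) (by omega) hl
    rw [g.port_scan rfl i rfl]
    unfold Tile.vin
    rw [if_neg (by omega), P.ed (by omega), vcol_scan H P' dv (by omega) (by omega),
      decide_eq_true (by omega), Bool.true_and,
      show M - K + sRow (.scan i) + 1 - (M + K) = 0 by omega]

/-- A scanning column of one path decodes tag coordinates, and its bottom is read in the signal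
rows. -/
theorem column_coords (P : VPath M C b) (k : Fin 2) :
    ∃ v, Decoded (fun s x => (b (M - K + k) (M - K + x)).tagMark k k s) (2 * K - 1) v ∧
      (∀ x, x < 2 * K → ∀ i,
        (b (M - K + k) (M - K + x)).u.bit (.U k i) = coordBit v (x + 1) i) ∧
      ∀ i, (b (M - K + k) (M - K + sRow (.coord k 0 i))).hin k .P = coordBit v 0 i := by
  have := P.large
  have := K_large
  have hk := k.isLt
  have H := hubs_single M b
  have P' := P.single
  obtain ⟨E, hE⟩ : ∃ E : ℕ → Fin 9 → Bool, E = fun x i => if x = 0
      then ev M b (M - K + k) (M - K + 1) (.Uk k 0 i)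
      else ev M b (M - K + k) (M - K + x) (.U k i) := ⟨_, rfl⟩
  have top : ∀ i, E (2 * K - 1 + 1) i = false := fun i => by
    rw [hE]
    simp only
    rw [if_neg (by omega)]
    exact P.col_inner_out (by omega) (by omega) (by omega) trivial (by omega)
  have st : ∀ x ≤ 2 * K - 1,
      (∀ i, E x i = coordStep (fun s => (b (M - K + k) (M - K + x)).tagMark k k s) (E (x + 1)) i) ∧
      CoordOnce (fun s => (b (M - K + k) (M - K + x)).tagMark k k s) (E (x + 1)) := fun x hx => by
    subst hE
    obtain ⟨h1, h2⟩ := coord_steps H P' k (x := x) (by omega)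
    simp only [Nat.succ_ne_zero, if_false]
    exact ⟨h1, h2⟩
  obtain ⟨v, dv⟩ :
      ∃ v, Decoded (fun s x => (b (M - K + k) (M - K + x)).tagMark k k s) (2 * K - 1) v := by
    refine exists_decoded (fun x s => E x ⟨s, by omega⟩) (fun x s => E x ⟨4 + s, by omega⟩)
      (fun x => E x 8) (fun s => top _) (fun x hx s => ?_) (fun x hx s => ?_) (fun x hx => ?_)
      (fun x hx k s h1 h2 => (st x hx).2 k s h1 h2)
    · have h := (st x hx).1 ⟨s, by omega⟩
      simp only [coordStep, dif_pos (show (s : ℕ) < 4 by omega), Fin.eta] at h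
      exact h
    · have h := (st x hx).1 ⟨4 + s, by omega⟩
      simp only [coordStep, dif_neg (show ¬ 4 + (s : ℕ) < 4 by omega),
        dif_pos (show 4 + (s : ℕ) < 8 by omega), Nat.add_sub_cancel_left, Fin.eta] at h
      exact h
    · have h := (st x hx).1 8
      simpa [coordStep] using h
  refine ⟨v, dv, fun x hx i => ?_, fun i => ?_⟩
  · rw [P.eu (by omega) (by omega), show M - K + x + 1 = M - K + (x + 1) by omega]
    exact (vcol_U H P' dv i).1 (x + 1) (by omega) (by omega)
  · have hs := sRow_bounds (.coord k 0 i)
    have hl := sRow_lt (.coord k 0 i)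
    have g := P.blockH (i := M - K + k) (j := M - K + sRow (.coord k 0 i)) (a := k)
      (c := sRow (.coord k 0 i)) (by omega) (by omega) (by omega) hl
    rw [g.port_coord k 0 i rfl rfl]
    unfold Tile.vin
    rw [if_neg (by omega), P.ed (by omega), (vcol_U H P' dv i).2 0 _ (by omega) (by omega),
      snap_zero]

end Vale.Agent.P196.Full.Tiles.Parse
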