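import Vale.Agent.P196.Full.Tiles.Parse.Scan

/-!
# P196: values carried by lines of a block of candidates

If all candidates of a hub agree on a marker or a signal, so do all candidates of every cell of the
line carrying it.
-/

namespace Vale.Agent.P196.Full.Tiles.Parse

variable {M : ℕ} {C : ℕ → ℕ → Set Tile}

/-- The layer of a value on the left edge of a cell of its row. -/
def vH (s : Fin 4) : HL := ![HL.Mk, HL.Mk, HL.MD, HL.MU] s

theorem tagMark_eq (T : Tile) (a : ℕ) (k : Fin 2) :
    T.tagMark a k =
      ![T.l.bit (cH k), T.hin a (cR k 0), T.hin a (cR k 1), T.hin a (cR k 2)] := by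
  fin_cases k <;> simp [Tile.tagMark, cH, cR]

theorem sCol_low (q : Sg) (k : Fin 2) : sCol q 0 k < K := by
  have := (sIdx q).isLt
  have := k.isLt
  have := K_large
  unfold sCol
  rw [if_pos rfl]
  omega

theorem sCol_high (q : Sg) (k : Fin 2) : K < sCol q 1 k := by
  have := K_large
  unfold sCol
  rw [if_neg (by decide)]
  omega

/-- A signal along its row. -/
theorem move_row_signal (c : Cand M C) (q : Sg) {x : Bool}
    (h : ∀ T ∈ C M (M - K + sRow q), T.hin K .P = x) {a : ℕ} (ha : a < 2 * K) :
    ∀ T ∈ C (M - K + a) (M - K + sRow q), T.hin a .P = x := by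
  intro T hT
  have := c.large
  have := K_large
  have hq := sRow_lt q
  obtain ⟨b, P, rfl⟩ := c.hpath (by omega) (by omega) hT
  rw [← h _ (P.chosen M (M - K + sRow q) (by omega) (by omega)),
    P.hin_eq (a := a) (by omega) ha (c := sRow q) (by omega) hq (h := HL.P) trivial,
    P.hin_eq (a := K) (by omega) (by omega) (c := sRow q) (by omega) hq (h := HL.P) trivial]

/-- A signal along its columns. -/
theorem move_bus (c : Cand M C) (q : Sg) {x : Bool}
    (h : ∀ T ∈ C M (M - K + sRow q), T.hin K .P = x) (hh k : Fin 2) {j : ℕ} (hj : M < j + K)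
    (hj' : j < 2 * M) : ∀ T ∈ C (M - K + sCol q hh k) j, T.d.bit .Bus = x := by
  intro T hT
  have := c.large
  have := K_large
  have hq := sRow_lt q
  have hc := sCol_lt q hh k
  have hb := sRow_bounds q
  obtain ⟨b, P, rfl⟩ := c.vpath (by omega) hj' hT
  have port := (P.blockH (i := M - K + sCol q hh k) (j := M - K + sRow q) (a := sCol q hh k) (c := sRow q) (by omega)
    hc (by omega) hq).port_bus q hh k rfl rfl
  rw [P.vin_eq (a := sCol q hh k) (c := sRow q) (by omega) hc (by omega) hq] at port
  have hin : (b (M - K + sCol q hh k) (M - K + sRow q)).hin (sCol q hh k) .P = x := by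
    exact move_row_signal c q h hc _ (P.chosen _ _ (by omega) (by omega))
  rw [← hin, ← port, P.ed hj']
  have step : ∀ n, M < n + K → n + 1 < 2 * M → (b (M - K + sCol q hh k) n).u.bit .Bus = (b (M - K + sCol q hh k) n).d.bit .Bus := by
    intro n h1 h2
    by_cases hn : n < M + K
    · exact (P.blockV (j := n) (a := sCol q hh k) (c := n + K - M) (by omega) hc (by omega)
        (by omega)).bus_through (by omega)
    · exact P.straight (by omega) (by omega) (by omega) (by omega) (by simp) (fun _ => by omega)
  rcases Nat.le_total j (M - K + max (sRow q) 1) with hl | hl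
  · exact (P.vconst (by omega) _ hl (by omega) fun n g g' => step n (by omega) (by omega)).symm
  · exact P.vconst (by omega) _ hl (by omega) fun n g g' => step n (by omega) (by omega)

/-- A signal column read inside the block. -/
theorem move_bus_vin (c : Cand M C) (q : Sg) {x : Bool}
    (h : ∀ T ∈ C M (M - K + sRow q), T.hin K .P = x) (hh k : Fin 2) {e : ℕ} (he : e < 2 * K) :
    ∀ T ∈ C (M - K + sCol q hh k) (M - K + e), T.vin e .Bus = x := by
  intro T hT
  have := c.large
  have := K_large
  have hc := sCol_lt q hh k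
  obtain ⟨b, P, rfl⟩ := c.vpath (by omega) (by omega) hT
  rw [P.vin_eq (a := sCol q hh k) (c := e) (by omega) hc (by omega) he, ← P.ed (by omega)]
  exact move_bus c q h hh k (by omega) (by omega) _ (P.chosen _ _ (by omega) (by omega))

/-- A marker of a tag coordinate along its row. -/
theorem move_tag (c : Cand M C) (k : Fin 2) (t : Fin 4) {e : ℕ} (he : e < 2 * K) {x : Bool}
    (h : ∀ T ∈ C (M - K + k) (M - K + e), T.tagMark k k t = x) {a : ℕ} (ha : a < 2 * K) :
    ∀ T ∈ C (M - K + a) (M - K + e), T.tagMark a k t = x := by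
  intro T hT
  have := c.large
  have := K_large
  have hk := k.isLt
  have hh : cH k = HL.C ∨ cH k = HL.A ∨ cH k = HL.B := by fin_cases k <;> simp [cH]
  obtain ⟨b, P, rfl⟩ := c.hpath (by omega) (by omega) hT
  rw [← h _ (P.chosen (M - K + k) (M - K + e) (by omega) (by omega)), tagMark_eq, tagMark_eq]
  have he' : M - K + e + K = M + e := by omega
  fin_cases t
  · simp only [Fin.zero_eta, Matrix.cons_val_zero]
    rw [P.el (by omega), P.el (by omega), P.row_shown (by omega) (by omega) (by omega) hh,
      P.row_shown (i := M - K + k) (by omega) (by omega) (by omega) hh, if_pos (by omega),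
      if_pos (by omega)]
  all_goals
    simp only [Fin.mk_one, Fin.reduceFinMk, Matrix.cons_val_one, Matrix.cons_val_two,
      Matrix.cons_val_three, Matrix.cons_val_zero, Matrix.head_cons, Matrix.tail_cons]
    rw [P.hin_eq (a := a) (by omega) ha he' he (cR_inner k _),
      P.hin_eq (a := k) (by omega) (by omega) he' he (cR_inner k _)]

/-- The coordinate of the bottom side along its column. -/
theorem move_bottom (c : Cand M C) (k : Fin 2) {y : ℕ} (hy : y < 2 * K) {x : Bool}
    (h : ∀ T ∈ C (M - K + k) (M - K + y), T.tagMark k k 2 = x) {e : ℕ} (he : e < 2 * K) :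
    ∀ T ∈ C (M - K + y) (M - K + e), T.d.bit (cV k) = x := by
  intro T hT
  have := c.large
  have := K_large
  have hh : cV k = VL.C ∨ cV k = VL.A ∨ cV k = VL.B := by fin_cases k <;> simp [cV]
  obtain ⟨b, P, rfl⟩ := c.vpath (by omega) (by omega) hT
  obtain ⟨d1, d2, -, -⟩ := (P.blockH (i := M - K + y) (j := M - K + y) (a := y) (c := y) (by omega)
    hy (by omega) hy).diag rfl
  have hd : (b (M - K + y) (M - K + y)).tagMark y k 2 = x :=
    move_tag c k 2 hy h hy _ (P.chosen _ _ (by omega) (by omega))
  have hd' : (b (M - K + y) (M - K + y)).d.bit (cV k) = x := by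
    rw [← hd, tagMark_eq]
    fin_cases k
    · simpa [cV, cR] using d1.symm
    · simpa [cV, cR] using d2.symm
  rw [← hd', P.ed (by omega), P.ed (by omega),
    P.col_shown (by omega) (by omega) (by omega) hh, if_pos (by omega),
    P.col_shown (by omega) (by omega) (j := M - K + y) (by omega) hh, if_pos (by omega)]

/-- The coordinate of the top side along its column. -/
theorem move_top (c : Cand M C) (k : Fin 2) {y : ℕ} (hy : y < 2 * K) {x : Bool}
    (h : ∀ T ∈ C (M - K + k) (M - K + y), T.tagMark k k 3 = x) {e : ℕ} (he : e < 2 * K) :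
    ∀ T ∈ C (M - K + y) (M - K + e), T.vin e (cT k) = x := by
  intro T hT
  have := c.large
  have := K_large
  obtain ⟨b, P, rfl⟩ := c.vpath (by omega) (by omega) hT
  obtain ⟨-, -, d3, d4⟩ := (P.blockH (i := M - K + y) (j := M - K + y) (a := y) (c := y) (by omega)
    hy (by omega) hy).diag rfl
  have hd : (b (M - K + y) (M - K + y)).tagMark y k 3 = x :=
    move_tag c k 3 hy h hy _ (P.chosen _ _ (by omega) (by omega))
  have hd' : (b (M - K + y) (M - K + y)).vin y (cT k) = x := by
    rw [← hd, tagMark_eq]
    fin_cases k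
    · simpa [cT, cR] using d3.symm
    · simpa [cT, cR] using d4.symm
  obtain ⟨-, t2, t3⟩ := P.col_top (i := M - K + y) (j := M - K + max e 1) (by omega) (by omega)
    (by omega) (by omega)
  obtain ⟨-, s2, s3⟩ := P.col_top (i := M - K + y) (j := M - K + max y 1) (by omega) (by omega)
    (by omega) (by omega)
  rw [← hd', P.vin_eq (a := y) (c := e) (by omega) hy (by omega) he,
    P.vin_eq (a := y) (c := y) (by omega) hy (by omega) hy]
  fin_cases k
  · simpa [cT] using t2.trans s2.symm
  · simpa [cT] using t3.trans s3.symm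

/-- A marker of a value along its row. -/
theorem move_value (c : Cand M C) (t : Fin 4) {v : ℕ} (hv : v + K ≤ M) {x : Bool}
    (h : ∀ T ∈ C M (M + K - 1 + v), T.valMark t = x) {a : ℕ} (ha : a + 1 < 2 * K)
    (h0 : t = 0 → a ≤ K) (h1 : t ≠ 0 → K < a) :
    ∀ T ∈ C (M - K + a) (M + K - 1 + v), T.l.bit (vH t) = x := by
  intro T hT
  have := c.large
  have := K_large
  obtain ⟨b, P, rfl⟩ := c.hpath (by omega) (by omega) hT
  have hj' : M + K - 1 + v < 2 * M := by omega
  rw [← h _ (P.chosen M _ (by omega) hj')]
  have md := P.row_md (i := M - K + a) (j := M + K - 1 + v) (by omega) (by omega) hj'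
  have md' := P.row_md (i := M + 1) (j := M + K - 1 + v) (by omega) (by omega) hj'
  fin_cases t
  · have := h0 rfl
    simp only [Tile.valMark, vH, Fin.zero_eta, Matrix.cons_val_zero]
    rw [P.el (by omega), P.el (by omega), P.row_mk (by omega) (by omega) hj',
      P.row_mk (i := M) (by omega) (by omega) hj', if_pos (by omega), if_pos le_rfl]
  · have := h1 (by decide)
    simp only [Tile.valMark, vH, Fin.mk_one, Matrix.cons_val_one, Matrix.cons_val_zero,
      Matrix.head_cons]
    rw [P.el (by omega), P.er (by omega) hj', P.row_mk (by omega) (by omega) hj',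
      P.row_mk (i := M + 1) (by omega) (by omega) hj', if_neg (by omega), if_neg (by omega)]
  · have := h1 (by decide)
    simp only [Tile.valMark, vH, Fin.reduceFinMk, Matrix.cons_val_two, Matrix.tail_cons,
      Matrix.head_cons]
    rw [P.el (by omega), P.er (by omega) hj', md.1, md'.1,
      decide_eq_true (show M < M - K + a ∧ M - K + a ≤ M + K - 1 + v by omega),
      decide_eq_true (show M < M + 1 ∧ M + 1 ≤ M + K - 1 + v by omega)]
  · have := h1 (by decide)
    simp only [Tile.valMark, vH, Fin.reduceFinMk, Matrix.cons_val_three, Matrix.tail_cons,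
      Matrix.head_cons]
    rw [P.el (by omega), P.er (by omega) hj', md.2, md'.2,
      decide_eq_true (show M < M - K + a ∧ M - K + a ≤ M + K - 1 + v by omega),
      decide_eq_true (show M < M + 1 ∧ M + 1 ≤ M + K - 1 + v by omega)]

end Vale.Agent.P196.Full.Tiles.Parse
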