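import Vale.Agent.P196.Full.Lift.Step.Obs
import Vale.Agent.P196.Full.Lift.Step.Moves

/-!
# P196: the observables at the hubs of a block and their crossings

Signals cross one another and all markers; a tag coordinate of the bottom or top side crosses
every coordinate of the four sides.
-/

namespace Vale.Agent.P196.Full.Lift

open Calculus Calculus.Part Tiles Tiles.Parse

attribute [local instance] Classical.propDecidable
attribute [local irreducible] K lvl

variable {n : ℕ} {Q : Type} [Group Q] {A : Amp Q n} {s : ℕ}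

/-- The cell `(i, j)` of the block with origin `0`. -/
noncomputable abbrev cellAt (s i j : ℕ) : Lat := place s 0 0 i j

theorem exact_tagCell {s a b : ℕ} (ha : a < 2 * K) (hb : b < 2 * K) :
    Geo.Exact (lvl s) (lvl s - K + a) (lvl s - K + b) := by
  have := Tiles.Geo.one_le_K
  have := Tiles.Geo.four_K_le_lvl s
  left
  unfold Geo.InCentre
  omega

theorem exact_switch {s v : ℕ} (hv : v + K ≤ lvl s) :
    Geo.Exact (lvl s) (lvl s) (lvl s + K - 1 + v) := by
  have := Tiles.Geo.one_le_K
  have := Tiles.Geo.four_K_le_lvl s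
  rcases Nat.eq_zero_or_pos v with rfl | hv0
  · left
    unfold Geo.InCentre
    omega
  · exact Or.inr ⟨rfl, by omega, by omega⟩

/-- The place of a signal hub. -/
noncomputable def sigAt (s : ℕ) (q : Sg) : Lat := cellAt s (lvl s) (lvl s - K + sRow q)

/-- The place of a value hub. -/
noncomputable def valAt (s v : ℕ) : Lat := cellAt s (lvl s) (lvl s + K - 1 + v)

/-- The place of a coordinate hub. -/
noncomputable def tagAt (s : ℕ) (k : Fin 2) (e : ℕ) : Lat :=
  cellAt s (lvl s - K + k) (lvl s - K + e)

namespace Field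

variable {F : Field A s}

/-- Transport of an observable along a line of the block. -/
theorem Sees.transport {K' : Type} [Finite K'] {i j i' j' : ℕ} {f g : Tile → K'}
    {O : Part (F.corner 0) K'} (hO : GoodPart A O)
    (h : F.Sees (cellAt s i j) (fun T => f T.1) O)
    (H : ∀ C, Cand (lvl s) C → ∀ k, (∀ T ∈ C i j, f T = k) → ∀ T ∈ C i' j', g T = k) :
    F.Sees (cellAt s i' j') (fun T => g T.1) O := by
  refine h.move hO fun e hb hm k hk T hT => ?_
  refine H (F.cands e) (cand_of_below hb.good hm (ne_one_of_mem_poss hT).1) k ?_ T.1 ⟨T, hT, rfl⟩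
  rintro _ ⟨U, hU, rfl⟩
  exact hk U hU

/-- The observable of a signal. -/
def IsSig (F : Field A s) (q : Sg) (O : Part (F.corner 0) Bool) : Prop :=
  GoodPart A O ∧ F.Sees (sigAt s q) (fun T => T.1.hin K .P) O

/-- The observable of a marker of a value. -/
def IsVal (F : Field A s) (t : Fin 4) (v : ℕ) (O : Part (F.corner 0) Bool) : Prop :=
  GoodPart A O ∧ F.Sees (valAt s v) (fun T => T.1.valMark t) O

/-- The observable of a marker of a tag coordinate. -/
def IsTag (F : Field A s) (k : Fin 2) (t : Fin 4) (e : ℕ) (O : Part (F.corner 0) Bool) : Prop :=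
  GoodPart A O ∧ F.Sees (tagAt s k e) (fun T => T.1.tagMark k k t) O

theorem exists_isSig (F : Field A s) (q : Sg) : ∃ O, F.IsSig q O := by
  obtain ⟨O, h1, h2⟩ := exists_sees_exact (F := F)
    (exact_tagCell (s := s) (a := K) (b := sRow q) (by have := K_large; omega) (sRow_lt q))
    fun T => T.1.hin K .P
  refine ⟨O, h1, ?_⟩
  have := Tiles.Geo.four_K_le_lvl s
  rwa [show lvl s - K + K = lvl s by omega] at h2

theorem exists_isVal (F : Field A s) (t : Fin 4) {v : ℕ} (hv : v + K ≤ lvl s) :
    ∃ O, F.IsVal t v O :=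
  exists_sees_exact (F := F) (exact_switch hv) fun T => T.1.valMark t

theorem exists_isTag (F : Field A s) (k : Fin 2) (t : Fin 4) {e : ℕ} (he : e < 2 * K) :
    ∃ O, F.IsTag k t e O :=
  exists_sees_exact (F := F) (exact_tagCell (by have := K_large; have := k.isLt; omega) he)
    fun T => T.1.tagMark k k t

variable {O O' : Part (F.corner 0) Bool} {q q' : Sg} {k k' : Fin 2} {t t' : Fin 4} {e e' v : ℕ}

theorem IsSig.at_row (h : F.IsSig q O) {a : ℕ} (ha : a < 2 * K) :
    F.Sees (cellAt s (lvl s - K + a) (lvl s - K + sRow q)) (fun T => T.1.hin a .P) O :=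
  h.2.transport (f := fun T => T.hin K .P) (g := fun T => T.hin a .P) h.1
    fun _ c _ hk => move_row_signal c q hk ha

theorem IsSig.at_col (h : F.IsSig q O) {e : ℕ} (he : e < 2 * K) :
    F.Sees (cellAt s (lvl s - K + sCol q 0 0) (lvl s - K + e)) (fun T => T.1.vin e .Bus) O :=
  h.2.transport (f := fun T => T.hin K .P) (g := fun T => T.vin e .Bus) h.1
    fun _ c _ hk => move_bus_vin c q hk 0 0 he

theorem IsSig.at_high (h : F.IsSig q O) (hh : Fin 2) (hv : v + K ≤ lvl s) :
    F.Sees (cellAt s (lvl s - K + sCol q hh 0) (lvl s + K - 1 + v))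
      (fun T => T.1.d.bit .Bus) O :=
  h.2.transport (f := fun T => T.hin K .P) (g := fun T => T.d.bit .Bus) h.1
    fun _ c _ hk => by
      have := c.large
      have := K_large
      exact move_bus c q hk hh 0 (by omega) (by omega)

theorem IsTag.at_row (h : F.IsTag k t e O) (he : e < 2 * K) {a : ℕ} (ha : a < 2 * K) :
    F.Sees (cellAt s (lvl s - K + a) (lvl s - K + e)) (fun T => T.1.tagMark a k t) O :=
  h.2.transport (f := fun T => T.tagMark k k t) (g := fun T => T.tagMark a k t) h.1
    fun _ c _ hk => move_tag c k t he hk ha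

theorem compat_sig_sig (h : F.IsSig q O) (h' : F.IsSig q' O') : Compat O O' :=
  compat_of_sees h.1 (h.at_col (sRow_lt q')) h'.1 (h'.at_row (sCol_lt q 0 0))

theorem compat_sig_tag (h : F.IsSig q O) (h' : F.IsTag k t e O') (he : e < 2 * K) :
    Compat O O' :=
  compat_of_sees h.1 (h.at_col he) h'.1 (h'.at_row he (sCol_lt q 0 0))

theorem compat_sig_val (h : F.IsSig q O) (h' : F.IsVal t v O') (hv : v + K ≤ lvl s) :
    Compat O O' := by
  have := K_large
  let hh : Fin 2 := if t = 0 then 0 else 1
  refine compat_of_sees h.1 (h.at_high hh hv) h'.1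
    (h'.2.transport (f := fun T => T.valMark t) (g := fun T => T.l.bit (vH t)) h'.1 fun _ c _ hk =>
      move_value c t hv hk ?_ (fun ht => ?_) fun ht => ?_)
  · exact (sCol_bounds q hh 0).2
  · simp only [hh, if_pos ht]
    exact (sCol_low q 0).le
  · simp only [hh, if_neg ht]
    exact sCol_high q 0

/-- A coordinate of the bottom or top side crosses every coordinate. -/
theorem compat_tag_vertical (h : F.IsTag k t e O) (h' : F.IsTag k' t' e' O') (he : e < 2 * K)
    (he' : e' < 2 * K) (ht : t = 2 ∨ t = 3) : Compat O O' := by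
  rcases ht with rfl | rfl
  · exact compat_of_sees h.1
      (h.2.transport (f := fun T => T.tagMark k k 2) (g := fun T => T.d.bit (cV k)) h.1
        fun _ c _ hk => move_bottom c k he hk he')
      h'.1 (h'.at_row he' he)
  · exact compat_of_sees h.1
      (h.2.transport (f := fun T => T.tagMark k k 3) (g := fun T => T.vin e' (cT k)) h.1
        fun _ c _ hk => move_top c k he hk he')
      h'.1 (h'.at_row he' he)

end Field

end Vale.Agent.P196.Full.Lift
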