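import Vale.Agent.P196.Full.Lift.Step.Moves

/-!
# P196: unambiguous signals form an allowed signature

Only the signal hubs are needed for this, not the hubs of values and coordinates.
-/

namespace Vale.Agent.P196.Full.Tiles.Parse

variable {M : ℕ} {C : ℕ → ℕ → Set Tile} {b : ℕ → ℕ → Tile}

open Classical in
/-- A column testing a pattern reads the signals in their rows. -/
theorem qm_signals (c : Cand M C) {sg : Sg → Bool}
    (h : ∀ q, ∀ T ∈ C M (M - K + sRow q), T.hin K .P = sg q) (P : VPath M C b) {a i : ℕ}
    (ha : i + K = M + a) (ha' : a < 2 * K) (hu : usable a = true) {e : ℕ} (he : 1 ≤ e)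
    (he' : e < 2 * K) :
    ev M b i (M - K + e) .Qm = decide (∀ q, sRow q < e → sg q = patOf a q) := by
  have := P.large
  induction e, he using Nat.le_induction with
  | base =>
    have g := P.blockV (i := i) (j := M - K) (c := 0) ha ha' (by omega) (by omega)
    rw [← P.eu (by omega) (by omega), g.qm_start rfl hu, decide_eq_true (fun q hq => ?_)]
    have := sRow_bounds q
    omega
  | succ e he ih =>
    have g := P.blockV (i := i) (j := M - K + e) (c := e) ha ha' (by omega) (by omega)
    rw [← Nat.add_assoc, ← P.eu (by omega) (by omega)]
    have ih' := ih (by omega)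
    by_cases hq : ∃ q, e = sRow q
    · obtain ⟨q, hq⟩ := hq
      have hin : (b i (M - K + e)).hin a .P = sg q := by
        refine move_row_signal c q (h q) ha' _ ?_
        have := P.chosen i (M - K + e) (by omega) (by omega)
        rwa [show M - K + a = i by omega, ← hq]
      rw [g.qm_test q hq hu, P.ed (by omega), ih', hin, Bool.eq_iff_iff]
      simp only [Bool.and_eq_true, decide_eq_true_eq]
      constructor
      · rintro ⟨h1, h2⟩ q' hq'
        rcases Nat.eq_or_lt_of_le (Nat.le_of_lt_succ hq') with g | g
        · obtain rfl : q' = q := sRow_inj (g.trans hq)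
          exact h2
        · exact h1 q' g
      · exact fun g => ⟨fun q' hq' => g q' (by omega), g q (by omega)⟩
    · push Not at hq
      rw [g.qm_pass (by omega) (by omega) hq, P.ed (by omega), ih', decide_eq_decide]
      refine forall_congr' fun q => ?_
      have := hq q
      constructor <;> intro g hh <;> exact g (by omega)

/-- The signals read at their hubs form an allowed signature. -/
theorem signals_allowed (c : Cand M C) {sg : Sg → Bool}
    (h : ∀ q, ∀ T ∈ C M (M - K + sRow q), T.hin K .P = sg q) : sg ∈ Allowed := by
  classical
  have := c.large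
  have hK := K_large
  obtain ⟨a, hu, hp⟩ := exists_pattern sg
  have ha := (usable_iff a).1 hu
  have ha' : a < 2 * K := by
    have := ha.2
    unfold mBase at this
    omega
  obtain ⟨b, P⟩ := c.exists_vpath
  have g := P.blockV (i := M - K + a) (j := M + K - 1) (c := 2 * K - 1) (a := a) (by omega) ha'
    (by omega) (by omega)
  have e := qm_signals c h P (i := M - K + a) (a := a) (by omega) ha' hu (e := 2 * K - 1) (by omega)
    (by omega)
  rw [decide_eq_true (fun q _ => by rw [hp]),
    show M - K + (2 * K - 1) = M + K - 1 by omega] at e
  by_contra hs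
  have := g.qm_final (by omega) hu (by simp [forb, hp, hs])
  rw [P.ed (by omega), e] at this
  exact Bool.noConfusion this

end Vale.Agent.P196.Full.Tiles.Parse
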