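import Vale.Agent.P196.Full.Lift.Step.Chain
import Vale.Agent.P196.Full.Lift.Step.Hubs
import Vale.Agent.P196.Full.Lift.Step.Signals
import Vale.Agent.P196.Full.Lift.Step.Columns

/-!
# P196: all observables at the hubs of a block are compatible

Markers of one scan are compatible by the chain argument. Once the signals are known, a column
coordinate and a value are never both free, and the first coordinate is determined by the signals
and its markers on the bottom and top sides, which cross every marker.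
-/

namespace Vale.Agent.P196.Full.Lift

open Calculus Calculus.Part Tiles Tiles.Parse

attribute [local instance] Classical.propDecidable
attribute [local irreducible] K lvl

/-- Families of values are compared classically, as in the generic lemmas on observables. -/
noncomputable local instance (priority := high) {α β : Type} : DecidableEq (α → β) :=
  fun a b => Classical.propDecidable (a = b)

/-- Pairs of values are compared classically, as in the generic lemmas on observables. -/
noncomputable local instance (priority := high) {α β : Type} : DecidableEq (α × β) :=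
  fun a b => Classical.propDecidable (a = b)

variable {n : ℕ} {Q : Type} [Group Q] {A : Amp Q n} {s : ℕ}

/-- The entry of the scan of the values showing an entry of the scan of a coordinate. -/
def scanIx (i : Fin 9) : Fin 17 := if h : (i : ℕ) < 8 then ⟨i, by omega⟩ else 16

theorem scanBit_scanIx (v : Fin 4 → Option ℕ) (m x : ℕ) (i : Fin 9) :
    scanBit v m x (scanIx i) = coordBit v x i := by
  unfold scanIx
  split
  · next h => exact (scanBit_eq_coordBit v m x).1 i h
  · next h =>
    rw [show i = (8 : Fin 9) from Fin.ext (by have := i.isLt; omega)]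
    exact (scanBit_eq_coordBit v m x).2

namespace Field

variable {F : Field A s} {O O' : Part (F.corner 0) Bool} {q : Sg} {k : Fin 2} {t t' : Fin 4}
  {e : Alt n →* Q}

/-- There is a column of candidates through every candidate. -/
theorem exists_column (he : A.Good e) (hm : Meet e (F.corner 0) e) {i j : ℕ} (hi : i < 2 * lvl s)
    (hj : j < 2 * lvl s) {T : LTile s} (hT : T ∈ Poss (F.Y (cellAt s i j)) e) :
    ∃ b, VPath (lvl s) (F.cands e) b ∧ b i j = T.1 :=
  (cand_of_below he hm (ne_one_of_mem_poss hT).1).vpath hi hj ⟨T, hT, rfl⟩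

/-- A path of candidates lifts to tiles. -/
theorem exists_lift {b : ℕ → ℕ → Tile} (P : VPath (lvl s) (F.cands e) b) (T : LTile s) (i j : ℕ)
    (h : b i j = T.1) :
    ∃ U : ℕ → ℕ → LTile s, U i j = T ∧ ∀ x y, x < 2 * lvl s → y < 2 * lvl s →
      (U x y).1 = b x y ∧ U x y ∈ Poss (F.Y (cellAt s x y)) e := by
  refine ⟨fun x y => if h : ∃ U, U ∈ Poss (F.Y (cellAt s x y)) e ∧ U.1 = b x y then h.choose else T,
    ?_, fun x y hx hy => ?_⟩
  · dsimp only
    split
    · next g => exact Subtype.ext (g.choose_spec.2.trans h)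
    · rfl
  · have g : ∃ U, U ∈ Poss (F.Y (cellAt s x y)) e ∧ U.1 = b x y := by
      obtain ⟨U, hU, e'⟩ := P.chosen x y hx hy
      exact ⟨U, hU, e'⟩
    simp only [dif_pos g]
    exact ⟨g.choose_spec.2, g.choose_spec.1⟩

/-- The scan of the values. -/
noncomputable def valScan (F : Field A s) : F.Scan where
  top := lvl s - K
  at_ x := valAt s x
  mark T := T.1.valMark
  state T i := T.1.u.bit (.S (scanIx i))
  exact x hx {K'} _ f := exists_sees_exact (F := F)
    (exact_switch (by have := Tiles.Geo.four_K_le_lvl s; omega)) f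
  column e he hm y hy T hT := by
    have := Tiles.Geo.four_K_le_lvl s
    have := K_large
    obtain ⟨b, P, hb⟩ := exists_column he hm (by omega) (by omega) hT
    obtain ⟨U, hU, hUs⟩ := exists_lift P T _ _ hb
    obtain ⟨v, dv, hscan, -⟩ := column_values P
    refine ⟨v, fun x => U (lvl s) (lvl s + K - 1 + x), hU, dv.near, dv.le, fun x hx => ?_⟩
    obtain ⟨h1, h2⟩ := hUs (lvl s) (lvl s + K - 1 + x) (by omega) (by omega)
    refine ⟨h2, fun t => ?_, funext fun i => ?_⟩
    · show (U _ _).1.valMark t = _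
      rw [h1]
      exact dv.mark t x hx
    · show (U _ _).1.u.bit _ = _
      rw [h1, hscan x hx, scanBit_scanIx]

/-- The scan of a tag coordinate. -/
noncomputable def tagScan (F : Field A s) (k : Fin 2) : F.Scan where
  top := 2 * K - 1
  at_ x := tagAt s k x
  mark T := T.1.tagMark k k
  state T i := T.1.u.bit (.U k i)
  exact x hx {K'} _ f := exists_sees_exact (F := F)
    (exact_tagCell (by have := K_large; have := k.isLt; omega) (by have := K_large; omega)) f
  column e he hm y hy T hT := by
    have := Tiles.Geo.four_K_le_lvl s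
    have := K_large
    have := k.isLt
    obtain ⟨b, P, hb⟩ := exists_column he hm (by omega) (by omega) hT
    obtain ⟨U, hU, hUs⟩ := exists_lift P T _ _ hb
    obtain ⟨v, dv, hscan, -⟩ := column_coords P k
    refine ⟨v, fun x => U (lvl s - K + k) (lvl s - K + x), hU, dv.near, dv.le, fun x hx => ?_⟩
    obtain ⟨h1, h2⟩ := hUs (lvl s - K + k) (lvl s - K + x) (by omega) (by omega)
    refine ⟨h2, fun t => ?_, funext fun i => ?_⟩
    · show (U _ _).1.tagMark k k t = _
      rw [h1]
      exact dv.mark t x hx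
    · show (U _ _).1.u.bit _ = _
      rw [h1]
      exact hscan x (by omega) i

theorem compat_val_val {v v' : ℕ} (h : F.IsVal t v O) (h' : F.IsVal t' v' O')
    (hv : v + K ≤ lvl s) (hv' : v' + K ≤ lvl s) : Compat O O' :=
  (valScan F).compat (show v ≤ lvl s - K by omega) (show v' ≤ lvl s - K by omega) h.1 h.2 h'.1 h'.2

theorem compat_tag_tag {x x' : ℕ} (h : F.IsTag k t x O) (h' : F.IsTag k t' x' O')
    (hx : x < 2 * K) (hx' : x' < 2 * K) : Compat O O' :=
  (tagScan F k).compat (show x ≤ 2 * K - 1 by omega) (show x' ≤ 2 * K - 1 by omega) h.1 h.2 h'.1 h'.2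

/-- The join of the signals. -/
theorem exists_signals (F : Field A s) : ∃ R : Part (F.corner 0) (Sg → Bool), GoodPart A R ∧
    (∀ q, F.IsSig q (R.merge fun g => g q)) ∧
    ∀ (J : Type) [Finite J] (S : Part (F.corner 0) J), GoodPart A S →
      (∀ q O, F.IsSig q O → Compat O S) → Compat R S := by
  choose G hG using fun q => exists_isSig F q
  obtain ⟨R, hR, hRm, hRu⟩ := exists_join (below_corner (F := F) 0).good Sg (fun _ => Bool) G
    (fun q => (hG q).1) fun q q' => compat_sig_sig (hG q) (hG q')
  exact ⟨R, hR, fun q => by rw [hRm]; exact hG q,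
    fun J _ S hS h => hRu J S hS fun q => h q _ (hG q)⟩

/-- Below a block of the joined signals every signal has a known value. -/
theorem signals_eq {R : Part (F.corner 0) (Sg → Bool)} (hR : GoodPart A R)
    (hs : ∀ q, F.IsSig q (R.merge fun g => g q)) (σ : Sg → Bool) (q : Sg) :
    ∀ T ∈ F.cands (R.atom σ) (lvl s) (lvl s - K + sRow q), T.hin K .P = σ q := by
  rintro _ ⟨T, hT, rfl⟩
  exact eq_of_refines hR (hs q).2 rfl hT

/-- Given the signals, each candidate marker of a value is decoded from the bottom of the scan. -/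
theorem value_decoded (he : A.Good e) (hm : Meet e (F.corner 0) e) {σ : Sg → Bool}
    (hσ : ∀ q, ∀ T ∈ F.cands e (lvl s) (lvl s - K + sRow q), T.hin K .P = σ q) {x : ℕ}
    (hx : x + K ≤ lvl s) {T : LTile s} (hT : T ∈ Poss (F.Y (valAt s x)) e) :
    ∃ v, (∀ i, scanBit v (lvl s - K) 0 i = σ (.scan i)) ∧
      ∀ t, T.1.valMark t = decide (v t = some x) := by
  have := Tiles.Geo.four_K_le_lvl s
  have := K_large
  obtain ⟨b, P, hb⟩ := exists_column he hm (by omega) (by omega) hT
  obtain ⟨v, dv, -, hsig⟩ := column_values P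
  refine ⟨v, fun i => ?_, fun t => ?_⟩
  · rw [← hsig i]
    have := sRow_lt (.scan i)
    exact hσ _ _ (P.chosen _ _ (by omega) (by omega))
  · rw [← hb]
    exact dv.mark t x (by omega)

/-- Given the signals, each candidate marker of a coordinate is decoded from the bottom of the
scan. -/
theorem coord_decoded (he : A.Good e) (hm : Meet e (F.corner 0) e) (hne : e ≠ 1) {σ : Sg → Bool}
    (hσ : ∀ q, ∀ T ∈ F.cands e (lvl s) (lvl s - K + sRow q), T.hin K .P = σ q) {x : ℕ}
    (hx : x < 2 * K) {T : LTile s} (hT : T ∈ Poss (F.Y (tagAt s k x)) e) :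
    ∃ v, Near v ∧ (∀ i, coordBit v 0 i = σ (.coord k 0 i)) ∧
      (∀ t, T.1.tagMark k k t = decide (v t = some x)) ∧
      (∀ t w, v t = some w → w < 2 * K) ∧
      ∀ y, y < 2 * K → ∃ U ∈ Poss (F.Y (tagAt s k y)) e,
        ∀ t, U.1.tagMark k k t = decide (v t = some y) := by
  have := Tiles.Geo.four_K_le_lvl s
  have := K_large
  have := k.isLt
  obtain ⟨b, P, hb⟩ := exists_column he hm (by omega) (by omega) hT
  obtain ⟨v, dv, -, hsig⟩ := column_coords P k
  refine ⟨v, dv.near, fun i => ?_, fun t => ?_, fun t w h => ?_, fun y hy => ?_⟩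
  · rw [← hsig i]
    have := sRow_lt (.coord k 0 i)
    exact move_row_signal (cand_of_below he hm hne) _ (hσ _) (by omega) _
      (P.chosen _ _ (by omega) (by omega))
  · rw [← hb]
    exact dv.mark t x (by omega)
  · have := dv.le t w h
    omega
  · obtain ⟨U, hU, e'⟩ := P.chosen (lvl s - K + k) (lvl s - K + y) (by omega) (by omega)
    exact ⟨U, hU, fun t => by rw [e']; exact dv.mark t y (by omega)⟩

theorem poss_dec {d d' : DecidableEq Bool} {b : Bool} {O : Part (F.corner 0) Bool}
    {e : Alt n →* Q} (h : b ∈ @Poss n Q _ (F.corner 0) Bool d O e) :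
    b ∈ @Poss n Q _ (F.corner 0) Bool d' O e :=
  Subsingleton.elim d d' ▸ h

/-- A value and a coordinate are compatible. -/
theorem compat_val_tag {v x : ℕ} (h : F.IsVal t v O) (h' : F.IsTag k t' x O')
    (hv : v + K ≤ lvl s) (hx : x < 2 * K) : Compat O O' := by
  obtain ⟨R, hR, hRs, hRu⟩ := exists_signals F
  refine compat_of_const h.1 h'.1 hR
    (hRu _ O h.1 fun q G hG => compat_sig_val hG h hv).symm
    (hRu _ O' h'.1 fun q G hG => compat_sig_tag hG h' hx).symm fun σ hne => ?_
  have he := hR.atom σ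
  have hm := R.meet_atom_unit σ
  have hσ := signals_eq hR hRs σ
  have hA : σ ∈ Allowed := signals_allowed (cand_of_below he hm hne) hσ
  by_cases hsome : ∃ r : Fin 4, σ (.coord k 0 ⟨r, by omega⟩) = true
  · obtain ⟨r, hr⟩ := hsome
    left
    intro i hi j hj
    obtain ⟨T, hT, rfl⟩ := h.2.poss h.1 he (k := i) (poss_dec hi)
    obtain ⟨U, hU, rfl⟩ := h.2.poss h.1 he (k := j) (poss_dec hj)
    obtain ⟨a, ha, hat⟩ := value_decoded he hm hσ hv hT
    obtain ⟨b, hb, hbt⟩ := value_decoded he hm hσ hv hU
    rw [hat, hbt, value_const (v := a) (w := b) (fun i => (ha i).trans (hb i).symm) fun p hp => ?_]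
    rw [ha] at hp ⊢
    exact allowed_max hA k r p hr hp
  · right
    intro i hi j hj
    obtain ⟨T, hT, rfl⟩ := h'.2.poss h'.1 he (k := i) (poss_dec hi)
    obtain ⟨U, hU, rfl⟩ := h'.2.poss h'.1 he (k := j) (poss_dec hj)
    obtain ⟨a, -, ha, hat, -⟩ := coord_decoded he hm hne hσ hx hT
    obtain ⟨b, -, hb, hbt, -⟩ := coord_decoded he hm hne hσ hx hU
    rw [hat, hbt, coord_none (v := a) (w := b) (fun i => (ha i).trans (hb i).symm) fun p => ?_]
    rw [ha]
    exact Bool.eq_false_iff.2 fun g => hsome ⟨p, g⟩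

/-- The side of a vertical coordinate. -/
def vert (b : Fin 2) : Fin 4 := if b = 0 then 2 else 3

theorem vert_cases (b : Fin 2) : vert b = 2 ∨ vert b = 3 := by fin_cases b <;> simp [vert]

/-- The two coordinates are compatible. -/
theorem compat_tag_cross {x y : ℕ} (h : F.IsTag 0 t x O) (h' : F.IsTag 1 t' y O') (hx : x < 2 * K)
    (hy : y < 2 * K) : Compat O O' := by
  obtain ⟨R, hR, hRs, hRu⟩ := exists_signals F
  choose G hG using fun b : Fin 2 × Fin (2 * K) => exists_isTag F 0 (vert b.1) b.2.isLt
  obtain ⟨V, hV, hVm, hVu⟩ := exists_join (below_corner (F := F) 0).good (Fin 2 × Fin (2 * K))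
    (fun _ => Bool) G (fun b => (hG b).1)
    fun b b' => compat_tag_vertical (hG b) (hG b') b.2.isLt b'.2.isLt (vert_cases b.1)
  obtain ⟨J, hJ⟩ : Compat R V := hRu _ V hV fun q S hS =>
    (hVu _ S hS.1 fun b => (compat_sig_tag hS (hG b) b.2.isLt).symm).symm
  have gJ := hR.joint hV hJ
  have hJO : Compat J O' := compat_joint hR hV h'.1 hJ
    (hRu _ O' h'.1 fun q S hS => compat_sig_tag hS h' hy)
    (hVu _ O' h'.1 fun b => compat_tag_vertical (hG b) h' b.2.isLt hy (vert_cases b.1))
  let φ : (Sg → Bool) × (Fin 2 × Fin (2 * K) → Bool) → Bool := fun r =>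
    if g : ∃ T, T ∈ Poss (F.Y (tagAt s 0 x)) (J.atom r) then g.choose.1.tagMark ((0 : Fin 2) : ℕ) 0 t else false
  suffices hO : O = J.merge φ by
    rw [hO]
    exact hJO.merge φ id
  refine h.2.unique h.1 (gJ.merge φ) (sees_merge gJ φ fun r T hT => ?_)
  have g : ∃ T, T ∈ Poss (F.Y (tagAt s 0 x)) (J.atom r) := ⟨T, hT⟩
  show T.1.tagMark ((0 : Fin 2) : ℕ) 0 t = dite _ _ _
  rw [dif_pos g]
  have hU := g.choose_spec
  generalize g.choose = U at hU
  obtain ⟨σ, w⟩ := r
  have he := gJ.atom (σ, w)
  have hm := J.meet_atom_unit (σ, w)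
  have hne := (ne_one_of_mem_poss hT).1
  have hσ : ∀ q, ∀ S ∈ F.cands (J.atom (σ, w)) (lvl s) (lvl s - K + sRow q), S.hin K .P = σ q := by
    rintro q _ ⟨S, hS, rfl⟩
    refine eq_of_refines gJ (hRs q).2 (φ := fun z => z.1 q) ?_ hS
    rw [← part_ext hJ.1, merge_merge]
    rfl
  have hw : ∀ b, ∀ S ∈ Poss (F.Y (tagAt s 0 b.2)) (J.atom (σ, w)),
      S.1.tagMark ((0 : Fin 2) : ℕ) 0 (vert b.1) = w b := by
    intro b S hS
    refine eq_of_refines gJ (hG b).2 (φ := fun z => z.2 b) ?_ hS
    rw [← hVm b, ← part_ext hJ.2, merge_merge]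
    rfl
  have hA : σ ∈ Allowed := signals_allowed (cand_of_below he hm hne) hσ
  obtain ⟨a, na, ha, hat, hal, hac⟩ := coord_decoded he hm hne hσ hx hT
  obtain ⟨c, nc, hc, hct, hcl, hcc⟩ := coord_decoded he hm hne hσ hx hU
  have relay : ∀ b : Fin 2, a (vert b) = c (vert b) := by
    intro b
    refine Option.ext fun z => ?_
    by_cases hz : z < 2 * K
    · obtain ⟨S, hS, hSa⟩ := hac z hz
      obtain ⟨S', hS', hSc⟩ := hcc z hz
      have e1 := hw (b, ⟨z, hz⟩) S hS
      rw [hSa, ← hw (b, ⟨z, hz⟩) S' hS', hSc, decide_eq_decide] at e1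
      exact e1
    · exact ⟨fun q => absurd (hal _ z q) hz, fun q => absurd (hcl _ z q) hz⟩
  rw [hat, hct, coord_const na nc (fun i => (ha i).trans (hc i).symm) (relay 0) (relay 1)
    fun p hp => ?_]
  simp only [ha] at hp ⊢
  exact allowed_relay hA p hp

end Field

end Vale.Agent.P196.Full.Lift
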