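import Vale.Agent.P196.Full.Lift.Step.Field
import Vale.Agent.P196.Full.Lift.Engine.Glue
import Vale.Agent.P196.Full.Lift.Geo.Exact
import Vale.Agent.P196.Full.Tiles.Geom

/-!
# P196: the corners of the blocks

The event that a place is an exact cell determines the geometry everywhere, so it only depends on
the origin of the blocks. These events are pairwise orthogonal and exhaust the corner coefficient
of the level.
-/

namespace Vale.Agent.P196.Full.Lift

open Calculus Tiles Geo

attribute [local instance] Classical.propDecidable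
attribute [local irreducible] K lvl

variable {n : ℕ} {Q : Type} [Group Q] {A : Amp Q n} {s : ℕ}

/-- The four geometric colours of a tile. -/
def q4 (T : LTile s) : Q4 := ⟨T.1.l.g, T.1.r.g, T.1.d.g.tr, T.1.u.g.tr⟩

theorem isCell_q4 {T : LTile s} {i j : ℕ} (hi : i < 2 * lvl s) (hj : j < 2 * lvl s)
    (h : SameGeom (lvl s) i j T.1) : IsCell (lvl s) (q4 T) i j :=
  ⟨hi, hj, h.1, h.2.1, by rw [q4, h.2.2.1, Tiles.Geo.geoV_tr],
    by rw [q4, h.2.2.2, Tiles.Geo.geoV_tr]⟩

theorem sameGeom_q4 {T : LTile s} {i j : ℕ} (h : IsCell (lvl s) (q4 T) i j) :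
    SameGeom (lvl s) i j T.1 := by
  refine ⟨h.l, h.r, ?_, ?_⟩
  · rw [← Tiles.Geo.GCol.tr_tr T.1.d.g]; exact congrArg GCol.tr h.d
  · rw [← Tiles.Geo.GCol.tr_tr T.1.u.g]; exact congrArg GCol.tr h.u

/-- The place of a cell in the blocks with a given origin. -/
noncomputable def place (s : ℕ) (o w : Lat) (i j : ℕ) : Lat :=
  (o.1 + 2 * (lvl s : ℤ) * w.1 + i, o.2 + 2 * (lvl s : ℤ) * w.2 + j)

theorem place_eq (s : ℕ) (o w : Lat) (i j : ℕ) :
    place s o w i j = o + ((2 * (lvl s : ℤ)) • w + ((i : ℤ), (j : ℤ))) := by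
  ext <;> simp [place] <;> ring

theorem exact_center (s : ℕ) : Exact (lvl s) (lvl s) (lvl s) := by
  have := Tiles.Geo.one_le_K
  left
  unfold InCentre
  omega

theorem exact_lt {s i j : ℕ} (h : Exact (lvl s) i j) : i < 2 * lvl s ∧ j < 2 * lvl s := by
  have := Tiles.Geo.one_le_K
  have := Tiles.Geo.four_K_le_lvl s
  unfold Exact InCentre at h
  omega

namespace Field

variable (F : Field A s)

/-- A good coefficient below the corner coefficient. -/
structure Below (e : Alt n →* Q) : Prop where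
  good : A.Good e
  meet : Meet e F.unit e

/-- The event that a place has a given geometry. -/
noncomputable def ev (z : Lat) (i j : ℕ) : Alt n →* Q :=
  block (F.Y z) fun T => SameGeom (lvl s) i j T.1

/-- The possible cells under a coefficient. -/
noncomputable def cells4 (e : Alt n →* Q) : ℤ → ℤ → Set Q4 :=
  fun x y => q4 '' Poss (F.Y (x, y)) e

/-- Every tile seen by `e` has the geometry of the blocks with origin `o`. -/
def Forced (e : Alt n →* Q) (o : Lat) : Prop :=
  ∀ (w : Lat) (i j : ℕ), i < 2 * lvl s → j < 2 * lvl s →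
    ∀ T ∈ Poss (F.Y (place s o w i j)) e, SameGeom (lvl s) i j T.1

/-- The event that the blocks have origin `o`. -/
noncomputable def corner (o : Lat) : Alt n →* Q :=
  F.ev (place s o 0 (lvl s) (lvl s)) (lvl s) (lvl s)

variable {F}

theorem ev_below (z : Lat) (i j : ℕ) : F.Below (F.ev z i j) :=
  ⟨F.good z _, meet_block_unit _ _⟩

theorem below_corner (o : Lat) : F.Below (F.corner o) := ev_below _ _ _

theorem sameGeom_of_mem_ev {z : Lat} {i j : ℕ} {T : LTile s}
    (hT : T ∈ Poss (F.Y z) (F.ev z i j)) : SameGeom (lvl s) i j T.1 := by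
  rw [ev, block_eq] at hT
  have := eq_of_mem_poss ((F.good z).merge _) (F.good z) (φ := id)
    (f := fun T : LTile s => decide (SameGeom (lvl s) i j T.1)) (by rw [merge_merge]; rfl) hT
  simpa using this

theorem arcs {e : Alt n →* Q} (he : A.Good e) : Arcs (lvl s) (F.cells4 e) where
  large := Tiles.Geo.four_K_le_lvl s
  cell x y σ hσ := by
    obtain ⟨T, -, rfl⟩ := hσ
    obtain ⟨i, j, hi, hj, h⟩ := hasGeom_of_ok T.2
    exact ⟨i, j, isCell_q4 hi hj h⟩
  right x y σ hσ := by
    obtain ⟨T, hT, rfl⟩ := hσ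
    obtain ⟨T', hT', e'⟩ := arc_block (F.good _) (F.good _) he (F.mh (x, y) T.1.r) hT rfl
    refine ⟨q4 T', ⟨T', ?_, rfl⟩, congrArg Col.g e'⟩
    simpa using hT'
  left x y σ hσ := by
    obtain ⟨T, hT, rfl⟩ := hσ
    have h := (F.mh (x - 1, y) T.1.l).symm
    rw [show ((x - 1, y) : Lat) + (1, 0) = (x, y) by simp] at h
    obtain ⟨T', hT', e'⟩ := arc_block (F.good _) (F.good _) he h hT rfl
    exact ⟨q4 T', ⟨T', hT', rfl⟩, congrArg Col.g e'⟩
  up x y σ hσ := by
    obtain ⟨T, hT, rfl⟩ := hσ
    obtain ⟨T', hT', e'⟩ := arc_block (F.good _) (F.good _) he (F.mv (x, y) T.1.u) hT rfl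
    refine ⟨q4 T', ⟨T', ?_, rfl⟩, congrArg (fun c : Col VL => c.g.tr) e'⟩
    simpa using hT'
  down x y σ hσ := by
    obtain ⟨T, hT, rfl⟩ := hσ
    have h := (F.mv (x, y - 1) T.1.d).symm
    rw [show ((x, y - 1) : Lat) + (0, 1) = (x, y) by simp] at h
    obtain ⟨T', hT', e'⟩ := arc_block (F.good _) (F.good _) he h hT rfl
    exact ⟨q4 T', ⟨T', hT', rfl⟩, congrArg (fun c : Col VL => c.g.tr) e'⟩

/-- An exact cell forces the geometry everywhere. -/
theorem forced_of_exact {e : Alt n →* Q} (he : A.Good e) {o w : Lat} {i j : ℕ}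
    (hex : Exact (lvl s) i j)
    (h : ∀ T ∈ Poss (F.Y (place s o w i j)) e, SameGeom (lvl s) i j T.1) : F.Forced e o := by
  obtain ⟨hi, hj⟩ := exact_lt hex
  have a : At (lvl s) (F.cells4 e) (place s o w i j).1 (place s o w i j).2 i j :=
    ⟨hi, hj, fun σ hσ => by
      obtain ⟨T, hT, rfl⟩ := hσ
      exact isCell_q4 hi hj (h T hT)⟩
  intro w' i' j' hi' hj' T hT
  have := grid_of_exact (arcs he) a hex (w'.1 - w.1) (w'.2 - w.2) hi' hj'
  refine sameGeom_q4 (this.2.2 (q4 T) ⟨T, ?_, rfl⟩)
  convert hT using 3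
  ext <;> simp [place] <;> ring

theorem ev_forced {o w : Lat} {i j : ℕ} (hex : Exact (lvl s) i j) :
    F.Forced (F.ev (place s o w i j) i j) o :=
  forced_of_exact (ev_below _ _ _).good hex fun _ => sameGeom_of_mem_ev

/-- The events of exact cells only depend on the origin. -/
theorem ev_congr {o w w' : Lat} {i j i' j' : ℕ} (hex : Exact (lvl s) i j)
    (hex' : Exact (lvl s) i' j') :
    F.ev (place s o w i j) i j = F.ev (place s o w' i' j') i' j' := by
  have key : ∀ {w w' : Lat} {i j i' j' : ℕ}, Exact (lvl s) i j → Exact (lvl s) i' j' →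
      ∀ b : Bool, b ≠ true → Comm (F.ev (place s o w i j) i j)
        (((F.Y (place s o w' i' j')).merge fun T => decide (SameGeom (lvl s) i' j' T.1)).atom b) := by
    intro w w' i j i' j' hex hex' b hb
    refine (comm_merge_iff (F.good _) (ev_below _ _ _).good _ b).2 fun T hT =>
      by_contra fun hne => hb ?_
    rw [← hT]
    exact decide_eq_true (ev_forced hex w' i' j' (exact_lt hex').1 (exact_lt hex').2 T hne)
  have h1 := key (w := w) (w' := w') hex hex'
  have h2 := key (w := w') (w' := w) hex' hex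
  simp only [ev, block_eq] at h1 h2 ⊢
  exact atom_eq_of_comm A.five_le h1 h2

theorem ev_eq_corner {o w : Lat} {i j : ℕ} (hex : Exact (lvl s) i j) :
    F.ev (place s o w i j) i j = F.corner o := ev_congr hex (exact_center s)

theorem corner_forced (o : Lat) : F.Forced (F.corner o) o := ev_forced (exact_center s)

theorem corner_add (o w : Lat) : F.corner (o + (2 * (lvl s : ℤ)) • w) = F.corner o := by
  rw [← ev_eq_corner (o := o) (w := w) (exact_center s), corner]
  congr 1
  ext <;> simp [place]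

/-- Different origins are orthogonal. -/
theorem corner_comm {o o' : Lat} (h : ∀ w : Lat, o' ≠ o + (2 * (lvl s : ℤ)) • w) :
    Comm (F.corner o) (F.corner o') := by
  have hM := Tiles.Geo.four_K_le_lvl s
  have := Tiles.Geo.one_le_K
  show Comm _ (block (F.Y (place s o' 0 (lvl s) (lvl s)))
    fun T => SameGeom (lvl s) (lvl s) (lvl s) T.1)
  rw [block_eq]
  refine (comm_merge_iff (F.good _) (below_corner o).good _ true).2 fun T hT =>
    by_contra fun hne => ?_
  have hT' : SameGeom (lvl s) (lvl s) (lvl s) T.1 := by simpa using hT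
  obtain ⟨w, i, j, hi, hj, hz⟩ :=
    exists_cell (lvl s) (by omega) o (place s o' 0 (lvl s) (lvl s))
  have hg := corner_forced o w i j hi hj T
    (show T ∈ Poss (F.Y (place s o w i j)) _ by rw [place, ← hz]; exact hne)
  have e := hg.1.symm.trans hT'.1
  rw [Tiles.Geo.geoH_tag (i := lvl s) (j := lvl s) hM (by omega) (by omega) (by omega) (by omega)]
    at e
  obtain ⟨_, _, _, _, _, _⟩ := Tiles.Geo.tag_inv e
  refine h w ?_
  obtain ⟨rfl, rfl⟩ : i = lvl s ∧ j = lvl s := by omega
  simp only [place, Prod.ext_iff, Prod.fst_zero, Prod.snd_zero, mul_zero, add_zero] at hz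
  refine Prod.ext ?_ ?_
  · simp; linarith [hz.1]
  · simp; linarith [hz.2]

/-- The origins exhaust the corner coefficient. -/
theorem exists_origin_of_ne_one {e : Alt n →* Q} (he : F.Below e) (hne : e ≠ 1) :
    ∃ o : Lat, ¬ Comm e (F.corner o) := by
  obtain ⟨T, hT⟩ := poss_nonempty (F.Y (0, 0)) A he.meet hne
  obtain ⟨x, y, τ, ⟨U, hU, rfl⟩, p, q, a, hc⟩ :=
    exists_centre (arcs he.good) (σ := q4 T) (x := 0) (y := 0) ⟨T, hT, rfl⟩
  refine ⟨(x - p, y - q), fun hcomm => hU ?_⟩
  have hex : Exact (lvl s) p q := Or.inl hc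
  have hz : ((x, y) : Lat) = place s (x - p, y - q) 0 p q := by ext <;> simp [place]
  rw [← ev_eq_corner (o := (x - p, y - q)) (w := 0) hex, ← hz, ev, block_eq] at hcomm
  exact (comm_merge_iff (F.good _) he.good _ true).1 hcomm U
    (decide_eq_true (sameGeom_q4 a))

/-- Translation moves the origin. -/
theorem corner_shift (o w : Lat) : A.Shift (vec s (-w)) (F.corner o) (F.corner (o + w)) := by
  have := F.shift (place s o 0 (lvl s) (lvl s)) w fun T => SameGeom (lvl s) (lvl s) (lvl s) T.1
  rw [show place s o 0 (lvl s) (lvl s) + w = place s (o + w) 0 (lvl s) (lvl s) by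
    ext <;> simp [place] <;> ring] at this
  exact this

end Field

end Vale.Agent.P196.Full.Lift
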