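import Vale.Agent.P196.Full.Lift.Step.Obs

/-!
# P196: a decoded parent at the corner of a block
-/

namespace Vale.Agent.P196.Full.Lift

open Calculus Tiles

attribute [local instance] Classical.propDecidable

variable {n : ℕ} {Q : Type} [Group Q] {A : Amp Q n} {s : ℕ}

/-- Every block of `R` sees only the children of its parent in the block with origin `0`. -/
def Field.Decodes (F : Field A s) (R : Part (F.corner 0) (LTile (s + 1))) : Prop :=
  ∀ (T : LTile (s + 1)) (i j : ℕ), i < 2 * lvl s → j < 2 * lvl s →
    ∀ t ∈ Poss (F.Y (place s 0 0 i j)) (R.atom T), t.1 = child forb (lvl s) T.1 i j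

end Vale.Agent.P196.Full.Lift
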