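import Vale.Agent.P196.Full.Lift.Step.Compat
import Vale.Agent.P196.Full.Lift.Step.Decodes
import Vale.Agent.P196.Full.Tiles.Parse.Block

/-!
# P196: the join of all observables at the hubs decodes the parent
-/

namespace Vale.Agent.P196.Full.Lift

open Calculus Calculus.Part Tiles Tiles.Parse

attribute [local instance] Classical.propDecidable
attribute [local irreducible] K lvl

/-- Families of values are compared classically, as in the generic lemmas on observables. -/
noncomputable local instance (priority := high) {α β : Type} : DecidableEq (α → β) :=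
  fun a b => Classical.propDecidable (a = b)

variable {n : ℕ} {Q : Type} [Group Q] {A : Amp Q n} {s : ℕ}

/-- The markers and signals read at the hubs of a block of level `s`. -/
abbrev HubIx (s : ℕ) : Type :=
  Sg ⊕ (Fin 4 × Fin (lvl s - K + 1)) ⊕ (Fin 2 × Fin 4 × Fin (2 * K))

namespace Field

variable {F : Field A s}

/-- The observable at a hub. -/
def IsHub (F : Field A s) : HubIx s → Part (F.corner 0) Bool → Prop
  | .inl q => F.IsSig q
  | .inr (.inl (t, v)) => F.IsVal t v
  | .inr (.inr (k, t, x)) => F.IsTag k t x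

theorem IsHub.good {x : HubIx s} {O : Part (F.corner 0) Bool} (h : F.IsHub x O) : GoodPart A O := by
  obtain q | ⟨t, v⟩ | ⟨k, t, x⟩ := x <;> exact And.left h

theorem exists_isHub (F : Field A s) (x : HubIx s) : ∃ O, F.IsHub x O := by
  have := Tiles.Geo.four_K_le_lvl s
  obtain q | ⟨t, v⟩ | ⟨k, t, x⟩ := x
  · exact exists_isSig F q
  · exact exists_isVal F t (by have := v.isLt; omega)
  · exact exists_isTag F k t x.isLt

theorem compat_hubs {x y : HubIx s} {O O' : Part (F.corner 0) Bool} (h : F.IsHub x O)
    (h' : F.IsHub y O') : Compat O O' := by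
  have := Tiles.Geo.four_K_le_lvl s
  have hv : ∀ v : Fin (lvl s - K + 1), (v : ℕ) + K ≤ lvl s := fun v => by
    have := v.isLt
    omega
  obtain q | ⟨t, v⟩ | ⟨k, t, a⟩ := x <;> obtain q' | ⟨t', v'⟩ | ⟨k', t', a'⟩ := y
  · exact compat_sig_sig h h'
  · exact compat_sig_val h h' (hv v')
  · exact compat_sig_tag h h' a'.isLt
  · exact (compat_sig_val h' h (hv v)).symm
  · exact compat_val_val h h' (hv v) (hv v')
  · exact compat_val_tag h h' (hv v) a'.isLt
  · exact (compat_sig_tag h' h a.isLt).symm
  · exact (compat_val_tag h' h (hv v') a.isLt).symm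
  · rcases eq_or_ne k k' with rfl | hk
    · exact compat_tag_tag h h' a.isLt a'.isLt
    · fin_cases k <;> fin_cases k' <;> simp at hk
      · exact compat_tag_cross h h' a.isLt a'.isLt
      · exact (compat_tag_cross h' h a'.isLt a.isLt).symm

/-- Some good partition of the corner decodes the parent. -/
theorem exists_decodes (F : Field A s) (hR : ReconstructGoal) :
    ∃ R : Part (F.corner 0) (LTile (s + 1)), GoodPart A R ∧ F.Decodes R := by
  choose G hG using exists_isHub F
  obtain ⟨R, gR, hRm, -⟩ := exists_join (below_corner (F := F) 0).good (HubIx s) (fun _ => Bool) G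
    (fun x => (hG x).good) fun x y => compat_hubs (hG x) (hG y)
  have parent : ∀ r, R.atom r ≠ 1 → ∃ T : LTile (s + 1), ∀ i j, i < 2 * lvl s → j < 2 * lvl s →
      ∀ t ∈ Poss (F.Y (place s 0 0 i j)) (R.atom r), t.1 = child forb (lvl s) T.1 i j := by
    intro r hne
    have seen : ∀ x, F.IsHub x (R.merge fun g => g x) := fun x => by rw [hRm]; exact hG x
    have H : Hubs (lvl s) (F.cands (R.atom r))
        (fun t v => if h : v < lvl s - K + 1 then r (.inr (.inl (t, ⟨v, h⟩))) else false)
        (fun k t c => if h : c < 2 * K then r (.inr (.inr (k, t, ⟨c, h⟩))) else false)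
        (fun q => r (.inl q)) := by
      refine ⟨?_, ?_, ?_⟩
      · rintro v hv _ ⟨T, hT, rfl⟩ t
        have hv' : v < lvl s - K + 1 := by omega
        rw [dif_pos hv']
        exact eq_of_refines gR (seen (.inr (.inl (t, ⟨v, hv'⟩)))).2 rfl hT
      · rintro k c hc _ ⟨T, hT, rfl⟩ t
        rw [dif_pos hc]
        exact eq_of_refines gR (seen (.inr (.inr (k, t, ⟨c, hc⟩)))).2 rfl hT
      · rintro q _ ⟨T, hT, rfl⟩
        exact eq_of_refines gR (seen (.inl q)).2 rfl hT
    obtain ⟨P, hP, hC⟩ := exists_parent_ok hR s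
      (cand_of_below (gR.atom r) (R.meet_atom_unit r) hne) H
    exact ⟨⟨P, hP⟩, fun i j hi hj t ht => hC i j hi hj _ ⟨t, ht, rfl⟩⟩
  let φ : (HubIx s → Bool) → LTile (s + 1) := fun r =>
    if h : R.atom r ≠ 1 then (parent r h).choose else ⟨seed (lvl (s + 1)), valid_seed s⟩
  refine ⟨R.merge φ, gR.merge φ, fun T i j hi hj t ht => ?_⟩
  by_contra hne
  refine ht ((comm_merge_iff gR ((F.good _).atom t) φ T).2 fun r hr => by_contra fun hc => hne ?_).symm
  have ht' : t ∈ Poss (F.Y (place s 0 0 i j)) (R.atom r) := fun q => hc q.symm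
  have h1 := (ne_one_of_mem_poss ht').1
  rw [← hr]
  simp only [φ, dif_pos h1]
  exact (parent r h1).choose_spec i j hi hj t ht'

end Field

end Vale.Agent.P196.Full.Lift
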