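import Vale.Agent.P196.Full.Lift.Level
import Vale.Agent.P196.Full.Lift.Engine.ShiftPart

/-!
# P196: the configuration of supertiles seen from one lifted level

From the tiles at the corner and the matching of colours one gets the tile at every place of the
grid, as a translated partition of the corner coefficient.
-/

namespace Vale.Agent.P196.Full.Lift

open Calculus Tiles

variable {n : ℕ} {Q : Type} [Group Q] {A : Amp Q n}

/-- The vector of a place of the grid of level `s`. -/
noncomputable def vec (s : ℕ) (z : Lat) : Lat := ((width s : ℤ) * z.1, (width s : ℤ) * z.2)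

theorem vec_add (s : ℕ) (z w : Lat) : vec s (z + w) = vec s z + vec s w := by
  simp [vec, mul_add]

theorem vec_neg (s : ℕ) (z : Lat) : vec s (-z) = -vec s z := by
  simp [vec]

theorem vec_zero (s : ℕ) : vec s 0 = 0 := by
  simp [vec]

theorem vec_eq_smul (s : ℕ) (z : Lat) :
    vec s z = z.1 • ((width s : ℤ), (0 : ℤ)) + z.2 • ((0 : ℤ), (width s : ℤ)) := by
  simp [vec, mul_comm]

/-- The tiles at all places of the grid. -/
structure Field (A : Amp Q n) (s : ℕ) where
  /-- The corner coefficient. -/
  unit : Alt n →* Q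
  /-- The tile at a place. -/
  Y : Lat → Part unit (LTile s)
  good : ∀ z, GoodPart A (Y z)
  fixed : ∀ z, A.Shift (vec s z) unit unit
  mh : ∀ z (γ : Col HL),
    block (Y z) (fun T => T.1.r = γ) = block (Y (z + (1, 0))) fun T => T.1.l = γ
  mv : ∀ z (γ : Col VL),
    block (Y z) (fun T => T.1.u = γ) = block (Y (z + (0, 1))) fun T => T.1.d = γ
  shift : ∀ z w (p : LTile s → Prop),
    A.Shift (vec s (-w)) (block (Y z) p) (block (Y (z + w)) p)

theorem Field.good_unit {s : ℕ} (F : Field A s) : A.Good F.unit := (F.good 0).unit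

/-- The configuration of a level. -/
theorem Level.exists_field {P : Part A.u (LTile 0)} {s : ℕ} (L : Level A P s) :
    ∃ F : Field A s, F.unit = L.unit ∧
      ∀ p : LTile s → Prop, ∀ z, A.Shift (vec s (-z)) (block L.tiles p)
        (block (u := F.unit) (F.Y z) p) := by
  classical
  have h1 : A.Shift ((width s : ℤ), (0 : ℤ)) L.unit L.unit :=
    shift_unit_of_match (fun T : LTile s => T.1.r) (fun T => T.1.l) L.match_h
  have h2 : A.Shift ((0 : ℤ), (width s : ℤ)) L.unit L.unit :=
    shift_unit_of_match (fun T : LTile s => T.1.u) (fun T => T.1.d) L.match_v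
  have hu := L.tiles_good.unit
  have fixed : ∀ z, A.Shift (vec s z) L.unit L.unit := fun z => by
    rw [vec_eq_smul]
    exact (shift_zsmul hu h1 z.1).add (shift_zsmul hu h2 z.2)
  choose Y hY hS using fun z => exists_shiftPart L.tiles_good (fixed (-z))
  refine ⟨⟨L.unit, Y, hY, fixed, fun z γ => ?_, fun z γ => ?_, fun z w p => ?_⟩, rfl,
    fun p z => hS z p⟩
  · have e := (L.match_h γ).add (hS (z + (1, 0)) fun T => T.1.l = γ)
    have hv : ((width s : ℤ), (0 : ℤ)) + vec s (-(z + (1, 0))) = vec s (-z) := by
      ext <;> simp [vec] <;> ring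
    rw [hv] at e
    exact (hS z fun T => T.1.r = γ).unique e
  · have e := (L.match_v γ).add (hS (z + (0, 1)) fun T => T.1.d = γ)
    have hv : ((0 : ℤ), (width s : ℤ)) + vec s (-(z + (0, 1))) = vec s (-z) := by
      ext <;> simp [vec] <;> ring
    rw [hv] at e
    exact (hS z fun T => T.1.u = γ).unique e
  · have e := ((hS z p).symm).add (hS (z + w) p)
    have hv : -vec s (-z) + vec s (-(z + w)) = vec s (-w) := by
      ext <;> simp [vec] <;> ring
    rwa [hv] at e

end Vale.Agent.P196.Full.Lift
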