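import Vale.Agent.P196.Full.Lift.Step.Cells
import Vale.Agent.P196.Full.Lift.Step.Decodes
import Vale.Agent.P196.Full.Lift.Window.Desc
import Vale.Agent.P196.Full.Tiles.Parse.Sides
import Vale.Agent.P196.Full.Tiles.Allowed

/-!
# P196: the next level from a decoded parent

A partition of the corner coefficient whose blocks see only the children of their parent is the
partition by the supertiles of the next level: adjacent parents share the colour of their common
side, and the tile at the origin is the descendant of the parent.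
-/

namespace Vale.Agent.P196.Full.Lift

open Calculus Calculus.Part Tiles

attribute [local instance] Classical.propDecidable
attribute [local irreducible] K lvl

variable {n : ℕ} {Q : Type} [Group Q] {A : Amp Q n}

/-- Unions of different blocks are orthogonal. -/
theorem comm_block_block {u : Alt n →* Q} {I : Type*} [Finite I] [DecidableEq I] {P : Part u I}
    (hP : GoodPart A P) {p q : I → Prop} (h : ∀ i, p i → ¬ q i) :
    Comm (block P p) (block P q) := by
  rw [block_eq P q]
  refine (comm_merge_iff hP (hP p) _ true).2 fun k hk => ?_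
  rw [block_eq P p]
  exact ((comm_merge_iff hP (hP.atom k) _ true).2 fun i hi => P.comm_atom fun e =>
    h i (of_decide_eq_true hi) (e ▸ of_decide_eq_true hk)).symm

/-- What sees only blocks satisfying a condition lies below their union. -/
theorem meet_block_of_poss {u : Alt n →* Q} {I : Type*} [Finite I] [DecidableEq I] {P : Part u I}
    (hP : GoodPart A P) {e : Alt n →* Q} (he : A.Good e) (hu : Meet e u e) {p : I → Prop}
    (h : ∀ i ∈ Poss P e, p i) : Meet e (block P p) e := by
  rw [block_eq]
  exact meet_own hu fun b hb => (comm_merge_iff hP he _ b).2 fun i hi => by_contra fun hne =>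
    hb (by rw [← hi]; exact decide_eq_true (h i hne))

/-- Blocks are equal when the blocks outside are orthogonal. -/
theorem block_eq_block {u : Alt n →* Q} {I J : Type*} [Finite I] [Finite J] [DecidableEq I]
    [DecidableEq J] {P : Part u I}
    {R : Part u J} (hP : GoodPart A P) (hR : GoodPart A R) {p : I → Prop} {q : J → Prop}
    (h₁ : ∀ i j, p i → ¬ q j → Comm (P.atom i) (R.atom j))
    (h₂ : ∀ i j, ¬ p i → q j → Comm (P.atom i) (R.atom j)) : block P p = block R q := by
  rw [block_eq, block_eq]
  refine atom_eq_of_comm A.five_le (fun b hb => ?_) (fun b hb => ?_)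
  · refine ((comm_merge_iff hP ((hR.merge _).atom b) _ true).2 fun i hi => ?_).symm
    refine ((comm_merge_iff hR (hP.atom i) _ b).2 fun j hj => h₁ i j (of_decide_eq_true hi) ?_).symm
    exact fun e => hb (by rw [← hj]; exact decide_eq_true e)
  · refine ((comm_merge_iff hR ((hP.merge _).atom b) _ true).2 fun j hj => ?_).symm
    refine ((comm_merge_iff hP (hR.atom j) _ b).2 fun i hi =>
      (h₂ i j (fun e => hb (by rw [← hi]; exact decide_eq_true e)) (of_decide_eq_true hj)).symm).symm

variable {P : Part A.u (LTile 0)} {s : ℕ}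

/-- The base partition of a level is good: it is read from the cells and the supertiles. -/
theorem Level.goodPart_base (L : Level A P s) : GoodPart A P := by
  choose T hT hTg using fun c => exists_pshift L.tiles_good (L.cells_shift c)
  obtain ⟨G, hG, hGa⟩ := exists_glue L.cells_good T hTg
  let t₀ : LTile 0 := ⟨_, ok_of_generated (Generated.base 0)⟩
  let φ : (Fin (width s) × Fin (width s)) × LTile s → LTile 0 := fun z =>
    if h : ∃ t : LTile 0, desc 0 s z.2.1 z.1.1 z.1.2 = t.1 then h.choose else t₀
  have e : G.merge φ = P := part_ext (refines_of_orth A.eight_le φ fun z t ht => by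
    obtain ⟨c, U⟩ := z
    rw [hGa]
    have m := L.site c U t _ (hT c U)
    have hne : ¬ desc 0 s U.1 c.1 c.2 = t.1 := fun q => ht (by
      have hex : ∃ t : LTile 0, desc 0 s U.1 c.1 c.2 = t.1 := ⟨t, q⟩
      have : φ (c, U) = hex.choose := dif_pos hex
      rw [this]
      exact Subtype.ext (q.symm.trans hex.choose_spec))
    rw [if_neg hne] at m
    exact m.comm_of_one)
  exact e ▸ hG.merge φ

namespace Field

variable {F : Field A s}

/-- What a translate sees was seen before the translation. -/
theorem poss_shift {e e' : Alt n →* Q} {z w : Lat} (h : A.Shift (vec s (-w)) e e') {t : LTile s}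
    (ht : t ∈ Poss (F.Y (z + w)) e') : t ∈ Poss (F.Y z) e := fun hc => by
  have hY := F.shift z w fun i => i = t
  rw [← atom_eq_block, ← atom_eq_block] at hY
  exact ht (h.comm hY hc)

theorem below_tile {R : Part (F.corner 0) (LTile (s + 1))} (hR : GoodPart A R)
    (T : LTile (s + 1)) : F.Below (R.atom T) := by
  exact (congrArg (fun d : DecidableEq (LTile (s + 1)) =>
    F.Below (@atom n Q _ (LTile (s + 1)) (F.corner 0) d R T)) (Subsingleton.elim _ _)).mp
      (below_atom hR T)

theorem place_translate (s : ℕ) (d : Lat) (i j : ℕ) :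
    place s 0 0 i j + (2 * (lvl s : ℤ)) • d = place s 0 d i j := by
  ext <;> simp [place] <;> ring

/-- Translating the decoded parents by a neighbour vector matches their colours. -/
theorem decodes_match {R : Part (F.corner 0) (LTile (s + 1))} (hR : GoodPart A R)
    (hd : F.Decodes R) (d : Lat) {Γ : Type*} (a b : LTile (s + 1) → Γ)
    (sep : ∀ T T' : LTile (s + 1), a T ≠ b T' → ∃ (i j i' j' : ℕ) (c c' : LTile s → Prop),
      i < 2 * lvl s ∧ j < 2 * lvl s ∧ i' < 2 * lvl s ∧ j' < 2 * lvl s ∧
      (∀ t : LTile s, t.1 = child forb (lvl s) T.1 i j → c t) ∧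
      (∀ t : LTile s, t.1 = child forb (lvl s) T'.1 i' j' → c' t) ∧
      Comm (block (F.Y (place s 0 d i j)) c) (block (F.Y (place s 0 0 i' j')) c'))
    (γ : Γ) :
    A.Shift (vec s (-((2 * (lvl s : ℤ)) • d))) (block R fun T => a T = γ)
      (block R fun T => b T = γ) := by
  have hfix : A.Shift (vec s (-((2 * (lvl s : ℤ)) • d))) (F.corner 0) (F.corner 0) := by
    have := corner_shift (F := F) 0 ((2 * (lvl s : ℤ)) • d)
    rwa [corner_add] at this
  obtain ⟨R', hS, hR'⟩ := exists_pshift hR hfix
  have orth : ∀ T T' : LTile (s + 1), a T ≠ b T' → Comm (R'.atom T) (R.atom T') := by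
    intro T T' hne
    obtain ⟨i, j, i', j', c, c', hi, hj, hi', hj', hc, hc', hcomm⟩ := sep T T' hne
    have m : Meet (R'.atom T) (block (F.Y (place s 0 d i j)) c) (R'.atom T) :=
      meet_block_of_poss (F.good _) (hR'.atom T) (below_tile hR' T).meet fun t ht => hc t
        (hd T i j hi hj t (poss_shift (hS T) (by rwa [place_translate])))
    have m' : Meet (R.atom T') (block (F.Y (place s 0 0 i' j')) c') (R.atom T') :=
      meet_block_of_poss (F.good _) (hR.atom T') (below_tile hR T').meet fun t ht => hc' t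
        (hd T' i' j' hi' hj' t ht)
    exact comm_of_below A hcomm m m' (hR'.atom T) (hR.atom T') (F.good _ _) (F.good _ _)
  have e : block R' (fun T => a T = γ) = block R fun T => b T = γ :=
    block_eq_block hR' hR (fun T T' h h' => orth T T' fun q => h' (q.symm.trans h))
      (fun T T' h h' => orth T T' fun q => h (q.trans h'))
  exact e ▸ hS.shift_block _

end Field

open Field in
/-- A decoded parent at the corner gives the next level. -/
theorem Level.next (L : Level A P s) {F : Field A s} (hu : F.unit = L.unit)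
    (hY : ∀ (p : LTile s → Prop) z,
      A.Shift (vec s (-z)) (block L.tiles p) (block (u := F.unit) (F.Y z) p))
    {R : Part (F.corner 0) (LTile (s + 1))} (hR : GoodPart A R) (hd : F.Decodes R) :
    Nonempty (Level A P (s + 1)) := by
  obtain ⟨cells, hcells, hcs⟩ := L.exists_cells hu
  have hP := L.goodPart_base
  have h2 := two_mul_lvl_pos s
  have hW : width (s + 1) = width s * (2 * lvl s) := by rw [width]
  refine ⟨⟨F.corner 0, cells, hcells, hcs, R, hR, fun γ => ?_, fun γ => ?_, ?_⟩⟩
  · have := decodes_match hR hd (-1, 0) (fun T : LTile (s + 1) => T.1.r) (fun T => T.1.l)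
      (fun T T' hne => by
        obtain ⟨j, hj, hne'⟩ : ∃ j < 2 * lvl s, (child forb (lvl s) T.1 (2 * lvl s - 1) j).r ≠
            (child forb (lvl s) T'.1 0 j).l := by
          by_contra hc
          push Not at hc
          exact hne ((sideGoal s T.1 T'.1 T.2.1 T'.2.1).1 hc)
        refine ⟨2 * lvl s - 1, j, 0, j,
          fun t => t.1.r = (child forb (lvl s) T.1 (2 * lvl s - 1) j).r,
          fun t => t.1.l = (child forb (lvl s) T'.1 0 j).l, by omega, hj, h2, hj,
          fun t ht => by simp [ht], fun t ht => by simp [ht], ?_⟩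
        rw [F.mh, show place s 0 (-1, 0) (2 * lvl s - 1) j + (1, 0) = place s 0 0 0 j by
          ext <;> simp [place] <;> omega]
        exact comm_block_block (F.good _) fun t ht ht' => hne' (ht.symm.trans ht'))
      γ
    convert this using 2 <;> simp [vec, hW]
  · have := decodes_match hR hd (0, -1) (fun T : LTile (s + 1) => T.1.u) (fun T => T.1.d)
      (fun T T' hne => by
        obtain ⟨i, hi, hne'⟩ : ∃ i < 2 * lvl s, (child forb (lvl s) T.1 i (2 * lvl s - 1)).u ≠
            (child forb (lvl s) T'.1 i 0).d := by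
          by_contra hc
          push Not at hc
          exact hne ((sideGoal s T.1 T'.1 T.2.1 T'.2.1).2 hc)
        refine ⟨i, 2 * lvl s - 1, i, 0,
          fun t => t.1.u = (child forb (lvl s) T.1 i (2 * lvl s - 1)).u,
          fun t => t.1.d = (child forb (lvl s) T'.1 i 0).d, hi, by omega, hi, h2,
          fun t ht => by simp [ht], fun t ht => by simp [ht], ?_⟩
        rw [F.mv, show place s 0 (0, -1) i (2 * lvl s - 1) + (0, 1) = place s 0 0 i 0 by
          ext <;> simp [place] <;> omega]
        exact comm_block_block (F.good _) fun t ht ht' => hne' (ht.symm.trans ht'))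
      γ
    convert this using 2 <;> simp [vec, hW]
  intro c T t f hf
  have gf : A.Good f := hf.good (hR.atom T)
  by_cases h1 : R.atom T = 1
  · rw [h1] at hf
    obtain rfl : f = 1 := hf.unique (Amp.Shift.one A _)
    split_ifs <;> exact Meet.of_comm (comm_one_right _).symm
  have hw := width_pos s
  have hc1 : (c.1 : ℕ) < width s * (2 * lvl s) := lt_of_lt_of_eq c.1.isLt hW
  have hc2 : (c.2 : ℕ) < width s * (2 * lvl s) := lt_of_lt_of_eq c.2.isLt hW
  obtain ⟨v₁, e1⟩ : ∃ v, v = (c.1 : ℕ) / width s := ⟨_, rfl⟩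
  obtain ⟨v₂, e2⟩ : ∃ v, v = (c.2 : ℕ) / width s := ⟨_, rfl⟩
  have hv1 : v₁ < 2 * lvl s := e1 ▸ Nat.div_lt_of_lt_mul hc1
  have hv2 : v₂ < 2 * lvl s := e2 ▸ Nat.div_lt_of_lt_mul hc2
  obtain ⟨C, hC⟩ := poss_nonempty (F.Y (place s 0 0 v₁ v₂)) A (below_tile hR T).meet h1
  have hCv : C.1 = child forb (lvl s) T.1 v₁ v₂ := hd T v₁ v₂ hv1 hv2 C hC
  have below : Meet (R.atom T) ((F.Y (place s 0 0 v₁ v₂)).atom C) (R.atom T) :=
    meet_own (below_tile hR T).meet fun t' ht' => by_contra fun hne =>
      ht' (Subtype.ext ((hd T v₁ v₂ hv1 hv2 t' hne).trans hCv.symm))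
  have hYC := (hY (fun i => i = C) (place s 0 0 v₁ v₂)).symm
  rw [← atom_eq_block, ← atom_eq_block, vec_neg, neg_neg] at hYC
  obtain ⟨g, hg, gg⟩ := A.exists_shift (vec s (place s 0 0 v₁ v₂)) (hR.atom T)
  have m1 : Meet g (L.tiles.atom C) g :=
    Amp.Shift.meet (hR.atom T) ((F.good _).atom C) below hg hYC hg
  obtain ⟨r, hr⟩ : ∃ r : Fin (width s) × Fin (width s),
      (r.1 : ℕ) = (c.1 : ℕ) % width s ∧ (r.2 : ℕ) = (c.2 : ℕ) % width s :=
    ⟨(⟨_, Nat.mod_lt _ hw⟩, ⟨_, Nat.mod_lt _ hw⟩), rfl, rfl⟩
  have hgf : A.Shift (((r.1 : ℕ) : ℤ), ((r.2 : ℕ) : ℤ)) g f := by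
    have := hg.symm.add hf
    convert this using 1
    have q1 : ((c.1 : ℕ) : ℤ) = (width s : ℤ) * (v₁ : ℤ) + ((r.1 : ℕ) : ℤ) := by
      rw [e1, hr.1]; exact_mod_cast (Nat.div_add_mod _ _).symm
    have q2 : ((c.2 : ℕ) : ℤ) = (width s : ℤ) * (v₂ : ℤ) + ((r.2 : ℕ) : ℤ) := by
      rw [e2, hr.2]; exact_mod_cast (Nat.div_add_mod _ _).symm
    ext <;> simp [vec, place, q1, q2]
  obtain ⟨h, hh, gh⟩ := A.exists_shift (((r.1 : ℕ) : ℤ), ((r.2 : ℕ) : ℤ)) (L.tiles_good.atom C)
  have m2 : Meet f h f := Amp.Shift.meet gg (L.tiles_good.atom C) m1 hgf hh hgf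
  have away : ∀ t' : LTile 0, desc 0 (s + 1) T.1 c.1 c.2 ≠ t'.1 → Comm f (P.atom t') := by
    intro t' hne
    have m := L.site r C t' h hh
    rw [if_neg (fun q => hne (by
      rw [desc_top T.1 c.1.isLt c.2.isLt, ← e1, ← e2, ← hCv, ← hr.1, ← hr.2, q]))] at m
    exact comm_of_below A m.comm_of_one m2 (Meet.self _) gf (hP.atom t') gh (hP.atom t')
  split_ifs with he
  · exact meet_own gf.unit fun t' ht' => away t' fun q => ht' (Subtype.ext (q.symm.trans he))
  · exact Meet.of_comm (away t he)

end Vale.Agent.P196.Full.Lift
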