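import Vale.Agent.P196.Full.Lift.Step.Decode
import Vale.Agent.P196.Full.Lift.Step.Next
import Vale.Agent.P196.Full.Tiles.Parse.Reconstruct

/-!
# P196: every level of the lifted grid can be reached from the one below
-/

namespace Vale.Agent.P196.Full.Lift

open Tiles

variable {n : ℕ} {Q : Type} [Group Q]

/-- From one level to the next, given that allowed signatures reconstruct cells. -/
theorem stepGoal_of_reconstruct (hR : ReconstructGoal) (A : Amp Q n)
    (P : Calculus.Part A.u (LTile 0)) : StepGoal A P := by
  rintro s ⟨L⟩
  obtain ⟨F, hu, hY⟩ := L.exists_field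
  obtain ⟨R, gR, hd⟩ := F.exists_decodes hR
  exact L.next hu hY gR hd

/-- From one level to the next. -/
theorem stepGoal (A : Amp Q n) (P : Calculus.Part A.u (LTile 0)) : StepGoal A P :=
  stepGoal_of_reconstruct reconstructGoal A P

end Vale.Agent.P196.Full.Lift
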