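import Vale.Agent.P196.Full.Lift.Step.Corner
import Vale.Agent.P196.Full.Tiles.Parse.Cand
import Vale.Agent.P196.Full.Tiles.Equations.Transfer

/-!
# P196: observables at the corner of a block

An observable is a partition of the corner coefficient of the next level each of whose blocks sees
one value of a given quantity at a given place. It is determined by that, it exists at exact
cells, and two observables seen at a common place are compatible.
-/

namespace Vale.Agent.P196.Full.Lift

open Calculus Calculus.Part Tiles

attribute [local instance] Classical.propDecidable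
attribute [local irreducible] K lvl

variable {n : ℕ} {Q : Type} [Group Q] {A : Amp Q n} {s : ℕ}

/-- A two-block partition is given by one block. -/
theorem bool_part_ext {u : Alt n →* Q} {P R : Part u Bool} (h : P.atom true = R.atom true) :
    P = R := by
  refine part_ext (Part.hom_ext fun b => ?_)
  cases b with
  | true => exact h
  | false =>
    refine MonoidHom.ext fun a => ?_
    have e : P.atom true a * P.atom false a = R.atom true a * R.atom false a :=
      (unit_bool P true a).trans (unit_bool R true a).symm
    rw [h] at e
    exact mul_left_cancel e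

/-- The blocks glued over one block give back that block. -/
theorem glue_fst {u : Alt n →* Q} {I J : Type} [Finite I] [Finite J] [DecidableEq I]
    [DecidableEq J] (P : Part u I)
    {R : ∀ i, Part (P.atom i) J} {T : Part u (I × J)}
    (hT : ∀ i j, T.atom (i, j) = (R i).atom j) : T.merge Prod.fst = P := by
  refine part_ext (Part.hom_ext fun i => MonoidHom.ext fun a => ?_)
  let h : (J → Alt n) →* Q := T.hom.comp
    (MonoidHom.mk' (fun y z => if z.1 = i then y z.2 else 1) fun y y' => funext fun z => by
      by_cases hz : z.1 = i <;> simp [hz])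
  have e : h = (R i).hom := MonoidHom.pi_ext fun j b => by
    show T.hom _ = (R i).atom j b
    rw [← hT]
    exact congrArg T.hom (funext fun z => by
      obtain ⟨i', j'⟩ := z
      by_cases hi : i' = i <;> simp [hi, Pi.mulSingle_apply])
  have := DFunLike.congr_fun e fun _ => a
  rw [(R i).hom_const] at this
  rw [← this]
  show T.hom _ = T.hom _
  exact congrArg T.hom (funext fun z => by simp [Pi.mulSingle_apply])

namespace Field

variable (F : Field A s)

/-- Every block sees one value of `f` at `z`. -/
def Sees {K' : Type} (z : Lat) (f : LTile s → K') (O : Part (F.corner 0) K') : Prop :=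
  ∀ k, ∀ T ∈ Poss (F.Y z) (O.atom k), f T = k

/-- The event that the blocks have origin `0`. -/
noncomputable def event : Part F.unit Bool :=
  (F.Y (place s 0 0 (lvl s) (lvl s))).merge fun T => decide (SameGeom (lvl s) (lvl s) (lvl s) T.1)

variable {F}

theorem goodPart_event : GoodPart A F.event := (F.good _).merge _

theorem event_true : F.event.atom true = F.corner 0 := (block_eq _ _).symm

theorem below_of_corner {e : Alt n →* Q} (he : A.Good e) (h : Meet e (F.corner 0) e) :
    F.Below e := by
  refine ⟨he, fun a b => ?_⟩
  have hc : Comm e (F.event.atom false) :=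
    Meet.orth A.eight_le h (Meet.self _)
      (event_true (F := F) ▸ F.event.comm_atom (by simp))
      (he.sep (goodPart_event.atom false)) (he.sep (goodPart_event.atom false))
      ((below_corner 0).good.sep (goodPart_event.atom false))
  rw [← h a b, ← event_true, ← unit_bool F.event true b, commutatorElement_def,
    commutatorElement_def]
  have hcc : Commute (F.event.atom false b) (e a)⁻¹ := ((hc a b).symm).inv_right
  calc e a * (F.event.atom true b * F.event.atom (!true) b) * (e a)⁻¹ *
        (F.event.atom true b * F.event.atom (!true) b)⁻¹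
      = e a * F.event.atom true b * (F.event.atom false b * (e a)⁻¹) *
          ((F.event.atom false b)⁻¹ * (F.event.atom true b)⁻¹) := by
        simp only [Bool.not_true]; group
    _ = _ := by rw [hcc.eq]; group

theorem below_atom {K' : Type} {O : Part (F.corner 0) K'} (hO : GoodPart A O) (k : K') :
    F.Below (O.atom k) := below_of_corner (hO.atom k) (O.meet_atom_unit k)

variable {K' : Type} [Finite K'] {z : Lat} {f : LTile s → K'} {O : Part (F.corner 0) K'}

/-- A block lies below the value it sees. -/
theorem Sees.meet_value (hO : GoodPart A O) (h : F.Sees z f O) (k : K') :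
    Meet (O.atom k) (((F.Y z).merge f).atom k) (O.atom k) :=
  meet_own (below_atom hO k).meet fun k' hk =>
    (comm_merge_iff (F.good z) (hO.atom k) f k').2 fun T hT => by_contra fun hne =>
      hk (hT.symm.trans (h k T hne))

/-- What sees a block of an observable sees its value. -/
theorem Sees.poss (hO : GoodPart A O) (h : F.Sees z f O) {e : Alt n →* Q} (he : A.Good e) {k : K'}
    (hk : k ∈ Poss O e) : ∃ T ∈ Poss (F.Y z) e, f T = k := by
  by_contra hc
  have g := ((F.good z).merge f).atom k
  have h1 : Comm e (((F.Y z).merge f).atom k) :=
    (comm_merge_iff (F.good z) he f k).2 fun T hT => by_contra fun hne => hc ⟨T, hne, hT⟩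
  exact hk (Meet.orth A.eight_le (h.meet_value hO k) (Meet.self e) h1.symm
    ((hO.atom k).sep he) ((hO.atom k).sep he) (g.sep he)).symm

/-- An observable is determined by what it sees. -/
theorem Sees.unique {O' : Part (F.corner 0) K'} (hO : GoodPart A O) (hO' : GoodPart A O')
    (h : F.Sees z f O) (h' : F.Sees z f O') : O = O' := by
  refine part_ext (eq_of_orth A.eight_le fun i j hij => by_contra fun hne => ?_)
  obtain ⟨T, hT, e⟩ := h'.poss hO' (hO.atom i) hne
  exact hij (e.symm.trans (h i T hT))

theorem Sees.merge {L : Type} [Finite L] (hO : GoodPart A O) (h : F.Sees z f O) (g : K' → L) :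
    F.Sees z (fun T => g (f T)) (O.merge g) := by
  intro l T hT
  by_contra hne
  exact hT ((comm_merge_iff hO ((F.good z).atom T) g l).2 fun k hk =>
    by_contra fun hc => hne ((congrArg g (h k T fun q => hc q.symm)).trans hk)).symm

/-- An observable which forces a value elsewhere is seen there. -/
theorem Sees.move {z' : Lat} {g : LTile s → K'} (hO : GoodPart A O) (h : F.Sees z f O)
    (hmove : ∀ e, F.Below e → Meet e (F.corner 0) e → ∀ k,
      (∀ T ∈ Poss (F.Y z) e, f T = k) → ∀ T ∈ Poss (F.Y z') e, g T = k) :
    F.Sees z' g O :=
  fun k => hmove _ (below_atom hO k) (O.meet_atom_unit k) k (h k)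

/-- The corner event is compatible with every quantity seen by an observable. -/
theorem Sees.compat_event (hO : GoodPart A O) (h : F.Sees z f O) :
    Compat F.event ((F.Y z).merge f) := by
  have := Fintype.ofFinite K'
  let R : ∀ b, Part (F.event.atom b) (Option K') := fun b =>
    match b with
    | true => ⟨(O.merge some).hom, fun a => by rw [(O.merge some).hom_const, event_true]⟩
    | false => Part.unit _
  have hR : ∀ b, GoodPart A (R b) := by
    intro b
    cases b with
    | true => exact fun p => hO.merge some p
    | false => exact goodPart_default (goodPart_event.atom false)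
  obtain ⟨T, hT, hTa⟩ := exists_glue goodPart_event R hR
  have hsome : ∀ k, T.atom (true, some k) = O.atom k := fun k => by
    rw [hTa]
    exact MonoidHom.ext fun a => congrArg O.hom (funext fun k' => by
      simp [Pi.mulSingle_apply])
  have htriv : ∀ i, i = (true, none) → T.atom i = 1 := fun i hi => by
    rw [hi, hTa]
    refine MonoidHom.ext fun a => ?_
    show O.hom _ = 1
    rw [← map_one O.hom]
    exact congrArg O.hom (funext fun k' => by simp)
  have := compat_union hT ((F.good z).merge f)
    (Finset.univ.filter fun i : Bool × Option K' => i.1 = true) fun i hi => ?_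
  · refine this.of_refines_left (f := id) ?_
    rw [Part.Refines, merge_merge, ← glue_fst F.event hTa]
    refine congrArg Part.hom (congrArg T.merge (funext fun i => ?_))
    obtain ⟨b, o⟩ := i
    cases b <;> simp
  obtain ⟨b, o⟩ := i
  obtain rfl : b = true := by simpa using hi
  have hat : ∀ j, ((T.merge fun k => decide (k = j)).atom true) = T.atom j := fun j => by
    rw [atom_eq_block T j, block_eq]
  cases o with
  | none =>
    refine compat_of_meets A.eight_le fun c k => ?_
    have h1 : (T.merge fun k => decide (k = (true, (none : Option K')))).atom true = 1 :=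
      (hat _).trans (htriv _ rfl)
    cases c with
    | true => exact ⟨1, Meet.of_comm (by rw [h1]; exact (comm_one_right _).symm)⟩
    | false =>
      refine ⟨((F.Y z).merge f).atom k, fun a b => ?_⟩
      have e := unit_bool (T.merge fun k => decide (k = (true, (none : Option K')))) true a
      rw [h1, MonoidHom.one_apply, one_mul, Bool.not_true] at e
      rw [e]
      exact (((F.Y z).merge f).meet_atom_unit k).symm a b
  | some k =>
    refine compat_of_le A.eight_le _ _ k fun k' hk => ?_
    rw [hat, hsome]
    exact (comm_merge_iff (F.good z) (hO.atom k) f k').2 fun T hT => by_contra fun hne =>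
      hk (hT.symm.trans (h k T hne))

/-- A quantity compatible with the corner event restricts to an observable. -/
theorem exists_sees (h : Compat F.event ((F.Y z).merge f)) :
    ∃ R : Part (F.corner 0) K', GoodPart A R ∧ F.Sees z f R := by
  obtain ⟨T, hT⟩ := h
  have gT := goodPart_event.joint ((F.good z).merge f) hT
  obtain ⟨R, hR, hRa⟩ := exists_restrict gT (e := F.corner 0)
    (by rw [part_ext hT.1, event_true])
  refine ⟨R, hR, fun k U hU => ?_⟩
  rw [hRa] at hU
  exact eq_of_mem_poss gT (F.good z) (φ := Prod.snd) (part_ext hT.2) hU

/-- Every quantity at an exact cell gives an observable. -/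
theorem exists_sees_exact {i j : ℕ} (hex : Geo.Exact (lvl s) i j) (f : LTile s → K') :
    ∃ R : Part (F.corner 0) K', GoodPart A R ∧ F.Sees (place s 0 0 i j) f R := by
  refine exists_sees ?_
  have e : F.event = (F.Y (place s 0 0 i j)).merge fun T => decide (SameGeom (lvl s) i j T.1) :=
    bool_part_ext (by rw [event_true, ← ev_eq_corner (w := 0) hex, ev, block_eq])
  rw [e]
  exact compat_merges _ _ _

/-- Observables seen at one place are compatible. -/
theorem compat_of_sees {L : Type} [Finite L] {g : LTile s → L} {O' : Part (F.corner 0) L}
    (hO : GoodPart A O) (h : F.Sees z f O) (hO' : GoodPart A O') (h' : F.Sees z g O') :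
    Compat O O' := by
  have hJ : Compat ((F.Y z).merge fun T => (f T, g T)) F.event :=
    compat_joint ((F.good z).merge f) ((F.good z).merge g) goodPart_event
      ⟨rfl, rfl⟩ (h.compat_event hO).symm (h'.compat_event hO').symm
  obtain ⟨R, hR, hRs⟩ := exists_sees hJ.symm
  rw [h.unique hO (hR.merge _) (hRs.merge hR Prod.fst),
    h'.unique hO' (hR.merge _) (hRs.merge hR Prod.snd)]
  exact compat_merges _ _ _

/-- The candidates seen by a coefficient in the block with origin `0`. -/
noncomputable def cands (F : Field A s) (e : Alt n →* Q) : ℕ → ℕ → Set Tile :=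
  fun i j => Subtype.val '' Poss (F.Y (place s 0 0 i j)) e

theorem place_succ_left (s i j : ℕ) :
    place s 0 0 i j + (1, 0) = place s 0 0 (i + 1) j := by
  ext <;> simp [place]

theorem place_succ_up (s i j : ℕ) :
    place s 0 0 i j + (0, 1) = place s 0 0 i (j + 1) := by
  ext <;> simp [place]

/-- What a coefficient below the corner sees forms candidates of a block. -/
theorem cand_of_below {e : Alt n →* Q} (he : A.Good e) (h : Meet e (F.corner 0) e) (hne : e ≠ 1) :
    Parse.Cand (lvl s) (F.cands e) := by
  have hb := below_of_corner he h
  refine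
    { large := Tiles.Geo.four_K_le_lvl s, geom := ?_, eqs := ?_, ne := ?_, right := ?_, left := ?_,
      up := ?_, down := ?_ }
  · rintro i j hi hj _ ⟨T, hT, rfl⟩
    by_contra hg
    refine hT (Meet.orth A.eight_le h (Meet.self _) ?_ (he.sep ((F.good _).atom T))
      (he.sep ((F.good _).atom T)) ((below_corner 0).good.sep ((F.good _).atom T)))
    exact by_contra fun q => hg (corner_forced 0 0 i j hi hj T q)
  · rintro i j - - _ ⟨T, -, rfl⟩
    exact localEq_of_ok T.2
  · intro i j _ _
    obtain ⟨T, hT⟩ := poss_nonempty (F.Y (place s 0 0 i j)) A hb.meet hne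
    exact ⟨_, T, hT, rfl⟩
  · rintro i j - - _ ⟨T, hT, rfl⟩
    obtain ⟨U, hU, e'⟩ := arc_block (F.good _) (F.good _) he (F.mh _ T.1.r) hT rfl
    rw [place_succ_left] at hU
    exact ⟨_, ⟨U, hU, rfl⟩, e'.symm⟩
  · rintro i j - - _ ⟨T, hT, rfl⟩
    rw [← place_succ_left] at hT
    obtain ⟨U, hU, e'⟩ := arc_block (F.good _) (F.good _) he (F.mh _ T.1.l).symm hT rfl
    exact ⟨_, ⟨U, hU, rfl⟩, e'⟩
  · rintro i j - - _ ⟨T, hT, rfl⟩
    obtain ⟨U, hU, e'⟩ := arc_block (F.good _) (F.good _) he (F.mv _ T.1.u) hT rfl
    rw [place_succ_up] at hU
    exact ⟨_, ⟨U, hU, rfl⟩, e'.symm⟩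
  · rintro i j - - _ ⟨T, hT, rfl⟩
    rw [← place_succ_up] at hT
    obtain ⟨U, hU, e'⟩ := arc_block (F.good _) (F.good _) he (F.mv _ T.1.d).symm hT rfl
    exact ⟨_, ⟨U, hU, rfl⟩, e'⟩

end Field

end Vale.Agent.P196.Full.Lift
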